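import Vale.Agent.Lib.P064.ls.Labelled

/-!
# The copy-count inequality in a density-graded form

Assume that one new vertex attached by `j` edges can have expected count below `3 log n` at
density `2 q` only if `log n ≤ M ^ j`. Then every factor `log n` lost in the step bound for
extensions is paid by the edges of the step, and the number of labelled copies of any pattern
`F` is at most `n ^ |V(F)| * (32 q M ^ 2) ^ e(F)`.
-/

namespace Vale.Agent.Lib.P064.LS

open Finset SimpleGraph Vale.Agent.KK Vale.Agent.KK.LS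

variable {V W : Type*} [Fintype V] [Fintype W] [DecidableEq W]

/-- If every proper intermediate extension problem towards `T` has expected count below one at
density `r`, and a single vertex with `j` edges of expected count below one forces
`L ≤ M ^ j`, then `L ^ |T \ S| ≤ (M ^ 2) ^ |extEdges F S T|`. -/
theorem lsg_edges {n : ℕ} (F : SimpleGraph W) {r : ℝ} (S T : Finset W) (hST : S ⊆ T)
    (hm : 2 ≤ (T \ S).card)
    (hR : ∀ X, S ⊂ X → X ⊂ T → wt n r F X T < 1)
    (L M : ℝ) (hL0 : 0 ≤ L) (hM : 1 ≤ M)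
    (hreg : ∀ j : ℕ, (n : ℝ) * r ^ j < 1 → L ≤ M ^ j) :
    L ^ (T \ S).card ≤ (M ^ 2) ^ (extEdges F S T).card := by
  classical
  have hdeg : ∀ b ∈ T \ S, L ≤ M ^ (extEdges F (T.erase b) T).card := by
    intro b hb
    rw [Finset.mem_sdiff] at hb
    obtain ⟨b', hb', hne⟩ : ∃ b' ∈ T \ S, b' ≠ b := by
      by_contra hcon
      push Not at hcon
      have hsub : T \ S ⊆ {b} := by
        intro x hx
        rw [Finset.mem_singleton]
        exact hcon x hx
      have := Finset.card_le_card hsub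
      rw [Finset.card_singleton] at this
      omega
    rw [Finset.mem_sdiff] at hb'
    have hSX : S ⊂ T.erase b := by
      rw [Finset.ssubset_iff_of_subset]
      · exact ⟨b', Finset.mem_erase.mpr ⟨hne, hb'.1⟩, hb'.2⟩
      · intro x hx
        rw [Finset.mem_erase]
        refine ⟨?_, hST hx⟩
        rintro rfl
        exact hb.2 hx
    have hXT : T.erase b ⊂ T := Finset.erase_ssubset hb.1
    have hlt := hR (T.erase b) hSX hXT
    unfold wt at hlt
    have hcard : (T \ T.erase b).card = 1 := by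
      have : T \ T.erase b = {b} := by
        ext x
        simp only [Finset.mem_sdiff, Finset.mem_erase, Finset.mem_singleton]
        constructor
        · rintro ⟨hx, hnx⟩
          by_contra hxb
          exact hnx ⟨hxb, hx⟩
        · rintro rfl
          exact ⟨hb.1, fun h => h.1 rfl⟩
      rw [this, Finset.card_singleton]
    rw [hcard, pow_one] at hlt
    exact hreg _ hlt
  have h1 : L ^ (T \ S).card ≤ ∏ b ∈ T \ S, M ^ (extEdges F (T.erase b) T).card := by
    rw [← Finset.prod_const]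
    exact Finset.prod_le_prod (fun b _ => hL0) hdeg
  have h1' : ∏ b ∈ T \ S, M ^ (extEdges F (T.erase b) T).card =
      M ^ (∑ b ∈ T \ S, (extEdges F (T.erase b) T).card) :=
    Finset.prod_pow_eq_pow_sum _ _ _
  have h2 : ∑ b ∈ T \ S, (extEdges F (T.erase b) T).card
      ≤ ∑ b ∈ T \ S, ((extEdges F S T).filter (fun e => b ∈ e)).card := by
    refine Finset.sum_le_sum (fun b hb => Finset.card_le_card ?_)
    intro e he
    rw [Finset.mem_sdiff] at hb
    have := ls7_mem_of_mem_erase F hb.2 he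
    rw [Finset.mem_filter]
    exact this
  have h3 : ∑ b ∈ T \ S, ((extEdges F S T).filter (fun e => b ∈ e)).card
      = ∑ e ∈ extEdges F S T, ((T \ S).filter (fun b => b ∈ e)).card :=
    Finset.sum_card_bipartiteAbove_eq_sum_card_bipartiteBelow (fun (b : W) (e : Sym2 W) => b ∈ e)
  have h4 : ∑ e ∈ extEdges F S T, ((T \ S).filter (fun b => b ∈ e)).card
      ≤ 2 * (extEdges F S T).card := by
    have := Finset.sum_le_card_nsmul (extEdges F S T)
      (fun e => ((T \ S).filter (fun b => b ∈ e)).card) 2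
      (fun e _ => ls7_card_filter_mem_le_two (T \ S) e)
    simpa [mul_comm] using this
  have hsum : ∑ b ∈ T \ S, (extEdges F (T.erase b) T).card ≤ 2 * (extEdges F S T).card := by
    omega
  calc L ^ (T \ S).card ≤ M ^ (∑ b ∈ T \ S, (extEdges F (T.erase b) T).card) := h1.trans_eq h1'
    _ ≤ M ^ (2 * (extEdges F S T).card) := pow_le_pow_right₀ hM hsum
    _ = (M ^ 2) ^ (extEdges F S T).card := by rw [pow_mul]

/-- The arithmetic of one step in the graded form. -/
theorem lsg_arith {n : ℕ} (hn : 2 ≤ n) (m e t : ℕ) (q M : ℝ) (hq0 : 0 < q) (hM : 1 ≤ M)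
    (hm : 1 ≤ m) (he : 1 ≤ e) (hme : m = 1 ∨ m ≤ e)
    (hw1 : 1 ≤ (n : ℝ) ^ m * (2 * q) ^ e)
    (ht : (t.factorial : ℝ) ≤ (n : ℝ) ^ e * ((n : ℝ) ^ m * q ^ e) ^ t)
    (hD : Real.log n ^ m ≤ (M ^ 2) ^ e ∨
      (m = 1 ∧ 3 * Real.log n ≤ (n : ℝ) ^ m * (2 * q) ^ e)) :
    ((m ^ 2 * t * (Nat.clog 2 n) ^ (m - 1) : ℕ) : ℝ) ≤
      (n : ℝ) ^ m * (2 * q) ^ e * (16 * M ^ 2) ^ e := by
  have hn2 : (2 : ℝ) ≤ (n : ℝ) := by exact_mod_cast hn
  have hn0 : (0 : ℝ) < (n : ℝ) := by linarith
  have hlog2 : (0.6931471803 : ℝ) < Real.log 2 := Real.log_two_gt_d9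
  have hL2 : Real.log 2 ≤ Real.log n := Real.log_le_log (by norm_num) hn2
  have hL : (0.6931471803 : ℝ) < Real.log n := by linarith
  have hμ : 0 < (n : ℝ) ^ m * q ^ e := by positivity
  have hμ1 : (n : ℝ) ^ m * (2 * q) ^ e = 2 ^ e * ((n : ℝ) ^ m * q ^ e) := by
    rw [mul_pow]; ring
  have h2e : (2 : ℝ) ≤ 2 ^ e := by
    calc (2 : ℝ) = 2 ^ 1 := by norm_num
      _ ≤ 2 ^ e := pow_le_pow_right₀ (by norm_num) he
  have hA := ls8_t_le n e t hn _ hμ ht
  have hB := ls8_clog_le n hn
  have hE : Real.exp 1 < 2.7182818286 := Real.exp_one_lt_d9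
  have hE0 : 0 < Real.exp 1 := Real.exp_pos 1
  have hE2 : Real.exp 1 ^ 2 < 7.39 := by nlinarith
  have he1 : (1 : ℝ) ≤ (e : ℝ) := by exact_mod_cast he
  have hμ1pos : 0 < (n : ℝ) ^ m * (2 * q) ^ e := by positivity
  have hA2 : (1 : ℝ) ≤ M ^ 2 := one_le_pow₀ hM
  have hAe : (1 : ℝ) ≤ (M ^ 2) ^ e := one_le_pow₀ hA2
  have hAe0 : (0 : ℝ) < (M ^ 2) ^ e := by linarith
  have h16e : (e : ℝ) * 16 ≤ 16 ^ e := ls8_mul_le_pow 16 (by norm_num) e he
  have hsplit : (16 * M ^ 2) ^ e = 16 ^ e * (M ^ 2) ^ e := mul_pow _ _ _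
  have h16pos : (0 : ℝ) < 16 ^ e := by positivity
  -- the bound on `t` in terms of the weight at density `2 q`
  have hμle : Real.exp 1 ^ 2 * ((n : ℝ) ^ m * q ^ e) ≤ 3.7 * ((n : ℝ) ^ m * (2 * q) ^ e) := by
    rw [hμ1]
    nlinarith
  have hB0 : (0 : ℝ) ≤ (Nat.clog 2 n : ℝ) := Nat.cast_nonneg _
  have ht0 : (0 : ℝ) ≤ (t : ℝ) := Nat.cast_nonneg _
  push_cast
  rcases hD with hD | ⟨hm1, h3⟩
  · -- every logarithm is paid by the edges
    have hC : (t : ℝ) ≤ (n : ℝ) ^ m * (2 * q) ^ e * ((5.4 + e) * Real.log n) := by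
      have h1 : (e : ℝ) * Real.log n ≤ (n : ℝ) ^ m * (2 * q) ^ e * (e * Real.log n) := by
        have : 0 ≤ (e : ℝ) * Real.log n := by positivity
        nlinarith
      nlinarith
    by_cases hm1 : m = 1
    · subst hm1
      simp only [Nat.cast_one, one_pow, one_mul, Nat.sub_self, pow_zero, mul_one, pow_one] at hD ⊢
      have h5 : (5.4 : ℝ) + e ≤ 16 ^ e := by linarith
      calc (t : ℝ) ≤ (n : ℝ) * (2 * q) ^ e * ((5.4 + e) * Real.log n) := by simpa using hC
        _ ≤ (n : ℝ) * (2 * q) ^ e * (16 ^ e * (M ^ 2) ^ e) := by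
            apply mul_le_mul_of_nonneg_left _ (by simpa using hμ1pos.le)
            exact mul_le_mul h5 hD (by linarith) h16pos.le
        _ = (n : ℝ) * (2 * q) ^ e * (16 * M ^ 2) ^ e := by rw [hsplit]
    · have hm2 : 2 ≤ m := by omega
      have hme' : m ≤ e := by
        rcases hme with h | h
        · omega
        · exact h
      have he2 : 2 ≤ e := le_trans hm2 hme'
      have hmR : (m : ℝ) ≤ (e : ℝ) := by exact_mod_cast hme'
      have hm0 : (0 : ℝ) ≤ (m : ℝ) := Nat.cast_nonneg _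
      have hm2le : (m : ℝ) ^ 2 ≤ (e : ℝ) ^ 2 := pow_le_pow_left₀ hm0 hmR 2
      have hpoly := ls8_poly_le e he2
      have hBpow : (Nat.clog 2 n : ℝ) ^ (m - 1) ≤ 3 ^ (e - 1) * Real.log n ^ (m - 1) := by
        calc (Nat.clog 2 n : ℝ) ^ (m - 1) ≤ (3 * Real.log n) ^ (m - 1) :=
              pow_le_pow_left₀ hB0 hB (m - 1)
          _ = 3 ^ (m - 1) * Real.log n ^ (m - 1) := mul_pow _ _ _
          _ ≤ 3 ^ (e - 1) * Real.log n ^ (m - 1) := by
              apply mul_le_mul_of_nonneg_right _ (by positivity)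
              exact pow_le_pow_right₀ (by norm_num) (by omega)
      have hLm : Real.log n ^ (m - 1) * Real.log n = Real.log n ^ m := by
        have : m = (m - 1) + 1 := by omega
        conv_rhs => rw [this, pow_succ]
      have h163 : (16 / 3 : ℝ) ^ (e - 1) * 3 ^ (e - 1) = 16 ^ (e - 1) := by
        rw [← mul_pow]
        norm_num
      have h16split : (16 : ℝ) ^ e = 16 * 16 ^ (e - 1) := by
        have : e = (e - 1) + 1 := by omega
        conv_lhs => rw [this, pow_succ]
        ring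
      have h3pos : (0 : ℝ) < 3 ^ (e - 1) := by positivity
      have hLpos : (0 : ℝ) < Real.log n := by linarith
      have hLm1 : (0 : ℝ) ≤ Real.log n ^ (m - 1) := by positivity
      -- e^2 (5.4 + e) 3^(e-1) ≤ 16^e
      have hkey : (e : ℝ) ^ 2 * (5.4 + e) * 3 ^ (e - 1) ≤ 16 ^ e := by
        calc (e : ℝ) ^ 2 * (5.4 + e) * 3 ^ (e - 1)
            ≤ 16 * (16 / 3 : ℝ) ^ (e - 1) * 3 ^ (e - 1) :=
              mul_le_mul_of_nonneg_right hpoly h3pos.le
          _ = 16 * ((16 / 3 : ℝ) ^ (e - 1) * 3 ^ (e - 1)) := by ring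
          _ = 16 ^ e := by rw [h163, h16split]
      have ha : (m : ℝ) ^ 2 * t ≤
          (e : ℝ) ^ 2 * ((n : ℝ) ^ m * (2 * q) ^ e * ((5.4 + e) * Real.log n)) :=
        mul_le_mul hm2le hC ht0 (by positivity)
      calc (m : ℝ) ^ 2 * t * (Nat.clog 2 n : ℝ) ^ (m - 1)
          ≤ (e : ℝ) ^ 2 * ((n : ℝ) ^ m * (2 * q) ^ e * ((5.4 + e) * Real.log n)) *
              (3 ^ (e - 1) * Real.log n ^ (m - 1)) :=
            mul_le_mul ha hBpow (by positivity) (by positivity)
        _ = (n : ℝ) ^ m * (2 * q) ^ e * (((e : ℝ) ^ 2 * (5.4 + e) * 3 ^ (e - 1)) *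
              (Real.log n ^ (m - 1) * Real.log n)) := by ring
        _ = (n : ℝ) ^ m * (2 * q) ^ e * (((e : ℝ) ^ 2 * (5.4 + e) * 3 ^ (e - 1)) *
              Real.log n ^ m) := by rw [hLm]
        _ ≤ (n : ℝ) ^ m * (2 * q) ^ e * (16 ^ e * (M ^ 2) ^ e) := by
            apply mul_le_mul_of_nonneg_left _ hμ1pos.le
            exact mul_le_mul hkey hD (by positivity) h16pos.le
        _ = (n : ℝ) ^ m * (2 * q) ^ e * (16 * M ^ 2) ^ e := by rw [hsplit]
  · -- one new vertex whose expected count is at least `3 log n`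
    subst hm1
    simp only [Nat.cast_one, one_pow, one_mul, Nat.sub_self, pow_zero, mul_one, pow_one] at h3 ⊢
    have hμ1pos' : 0 < (n : ℝ) * (2 * q) ^ e := by simpa using hμ1pos
    have hμle' : Real.exp 1 ^ 2 * ((n : ℝ) * q ^ e) ≤ 3.7 * ((n : ℝ) * (2 * q) ^ e) := by
      simpa using hμle
    have hA' : (t : ℝ) ≤ Real.exp 1 ^ 2 * ((n : ℝ) * q ^ e) + e * Real.log n := by
      simpa using hA
    have h5 : (3.7 : ℝ) + e ≤ 16 ^ e := by linarith
    have h6 : (e : ℝ) * Real.log n ≤ e * ((n : ℝ) * (2 * q) ^ e) := by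
      apply mul_le_mul_of_nonneg_left _ (by linarith)
      linarith
    calc (t : ℝ) ≤ (n : ℝ) * (2 * q) ^ e * (3.7 + e) := by nlinarith
      _ ≤ (n : ℝ) * (2 * q) ^ e * (16 ^ e * (M ^ 2) ^ e) := by
          apply mul_le_mul_of_nonneg_left _ hμ1pos'.le
          calc (3.7 : ℝ) + e ≤ 16 ^ e := h5
            _ = 16 ^ e * 1 := by ring
            _ ≤ 16 ^ e * (M ^ 2) ^ e := mul_le_mul_of_nonneg_left hAe h16pos.le
      _ = (n : ℝ) * (2 * q) ^ e * (16 * M ^ 2) ^ e := by rw [hsplit]

/-- One step of the chain in the graded form: the number of extensions is at most the weight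
times a power of `16 M ^ 2`. -/
theorem lsg_step {n : ℕ} (hn : 2 ≤ n) (H : SimpleGraph (Fin n)) (F : SimpleGraph W) {q : ℝ}
    (hq0 : 0 < q) (hq1 : 2 * q ≤ 1) (hnq : 1 ≤ n * (2 * q)) (h : SubgraphsExpected n H q)
    (hW : WeakHyp n H q) (M : ℝ) (hM : 1 ≤ M)
    (hreg : ∀ j : ℕ, (n : ℝ) * (2 * q) ^ j < 3 * Real.log n → Real.log n ≤ M ^ j)
    (S T : Finset W) (hST : S ⊂ T)
    (P1 : 1 ≤ wt n (2 * q) F S T)
    (P2 : ∀ X, S ⊂ X → X ⊂ T → wt n (2 * q) F X T < 1) (ψ : W → Fin n) :
    ((Ext F H S T ψ).card : ℝ) ≤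
      wt n (2 * q) F S T * (16 * M ^ 2) ^ (extEdges F S T).card := by
  classical
  have h2q : 0 < 2 * q := by linarith
  have hl2 : (0.6931471803 : ℝ) < Real.log 2 := Real.log_two_gt_d9
  have hnR : (2 : ℝ) ≤ n := by exact_mod_cast hn
  have hlogn : Real.log 2 ≤ Real.log n := Real.log_le_log (by norm_num) hnR
  have hlog0 : 0 ≤ Real.log n := by linarith
  have h3log : (1 : ℝ) ≤ 3 * Real.log n := by linarith
  have hm1 : 1 ≤ (T \ S).card :=
    Finset.card_pos.2 (Finset.sdiff_nonempty.2 hST.2)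
  have hme : (T \ S).card = 1 ∨ (T \ S).card ≤ (extEdges F S T).card := by
    by_cases h2 : 2 ≤ (T \ S).card
    · exact Or.inr (step_edges_ge F h2q hq1 hnq S T hST.subset h2 P2)
    · exact Or.inl (by omega)
  rcases Nat.eq_zero_or_pos (extEdges F S T).card with he0 | hepos
  · have hm_eq : (T \ S).card = 1 := by
      rcases hme with h' | h'
      · exact h'
      · omega
    have hc := Ext_card_le_pow F H S T ψ
    rw [Fintype.card_fin, hm_eq, pow_one] at hc
    unfold wt
    rw [hm_eq, he0, pow_one, pow_zero, pow_zero, mul_one, mul_one]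
    exact_mod_cast hc
  · obtain ⟨t, ht1, ht2⟩ := step_count hn H F hq0 hq1 h hW S T hST P2 ψ
    have hD : Real.log n ^ (T \ S).card ≤ (M ^ 2) ^ (extEdges F S T).card ∨
        ((T \ S).card = 1 ∧
          3 * Real.log n ≤ (n : ℝ) ^ (T \ S).card * (2 * q) ^ (extEdges F S T).card) := by
      by_cases h2 : 2 ≤ (T \ S).card
      · left
        exact lsg_edges F S T hST.subset h2 P2 (Real.log n) M hlog0 hM
          (fun j hj => hreg j (lt_of_lt_of_le hj h3log))
      · have hm_eq : (T \ S).card = 1 := by omega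
        by_cases hc : (n : ℝ) ^ (T \ S).card * (2 * q) ^ (extEdges F S T).card < 3 * Real.log n
        · left
          rw [hm_eq, pow_one] at hc ⊢
          have h5 := hreg _ hc
          have h6 : M ^ (extEdges F S T).card ≤ (M ^ 2) ^ (extEdges F S T).card :=
            pow_le_pow_left₀ (by linarith) (by nlinarith) _
          linarith
        · right
          exact ⟨hm_eq, not_lt.1 hc⟩
    unfold wt at ht1 P1 ⊢
    have h3 := lsg_arith hn (T \ S).card (extEdges F S T).card t q M hq0 hM hm1 hepos hme P1 ht1 hD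
    have h4 : ((Ext F H S T ψ).card : ℝ) ≤
        (((T \ S).card ^ 2 * t * (Nat.clog 2 n) ^ ((T \ S).card - 1) : ℕ) : ℝ) := by
      exact_mod_cast ht2
    exact le_trans h4 h3

/-- The chain bound in the graded form. -/
theorem lsg_chain {n : ℕ} (hn : 2 ≤ n) (H : SimpleGraph (Fin n)) (F : SimpleGraph W) {q : ℝ}
    (hq0 : 0 < q) (hq1 : 2 * q ≤ 1) (hnq : 1 ≤ n * (2 * q)) (h : SubgraphsExpected n H q)
    (hW : WeakHyp n H q) (M : ℝ) (hM : 1 ≤ M)
    (hreg : ∀ j : ℕ, (n : ℝ) * (2 * q) ^ j < 3 * Real.log n → Real.log n ≤ M ^ j)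
    (S : Finset W)
    (hgood : ∀ X, S ⊆ X → 1 ≤ wt n (2 * q) F S X) (ψ : W → Fin n) :
    ((Ext F H S univ ψ).card : ℝ) ≤
      wt n (2 * q) F S univ * (16 * M ^ 2) ^ (extEdges F S univ).card := by
  classical
  have hnR : (2 : ℝ) ≤ n := by exact_mod_cast hn
  have hlog0 : 0 ≤ Real.log n := Real.log_nonneg (by linarith)
  have hK : 0 ≤ 16 * M ^ 2 := by positivity
  have hnpos : 0 < n := by omega
  have h2q : 0 < 2 * q := by linarith
  have main : ∀ k : ℕ, ∀ S : Finset W, (univ \ S).card = k →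
      (∀ X, S ⊆ X → 1 ≤ wt n (2 * q) F S X) → ∀ ψ : W → Fin n,
      ((Ext F H S univ ψ).card : ℝ) ≤
        wt n (2 * q) F S univ * (16 * M ^ 2) ^ (extEdges F S univ).card := by
    intro k
    induction k using Nat.strong_induction_on with
    | _ k ih =>
      intro S hk hgood ψ
      by_cases hS : S = univ
      · rw [hS, wt_self, extEdges_self, Finset.card_empty, pow_zero, mul_one]
        exact_mod_cast Ext_self_card F H univ ψ
      · have hSuniv : S ⊂ univ := Finset.ssubset_univ_iff.2 hS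
        have hne : ((univ : Finset (Finset W)).filter (fun T => S ⊂ T)).Nonempty :=
          ⟨univ, Finset.mem_filter.2 ⟨Finset.mem_univ _, hSuniv⟩⟩
        obtain ⟨T0, hT0mem, hT0min⟩ :=
          Finset.exists_min_image _ (fun T => wt n (2 * q) F S T) hne
        have hne2 : (((univ : Finset (Finset W)).filter (fun T => S ⊂ T)).filter
            (fun T => wt n (2 * q) F S T = wt n (2 * q) F S T0)).Nonempty :=
          ⟨T0, Finset.mem_filter.2 ⟨hT0mem, rfl⟩⟩
        obtain ⟨T, hTmem, hTmin⟩ := Finset.exists_min_image _ (fun T => T.card) hne2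
        have hST : S ⊂ T := (Finset.mem_filter.1 (Finset.mem_filter.1 hTmem).1).2
        have hTw : wt n (2 * q) F S T = wt n (2 * q) F S T0 := (Finset.mem_filter.1 hTmem).2
        have hmin : ∀ T', S ⊂ T' → wt n (2 * q) F S T ≤ wt n (2 * q) F S T' := by
          intro T' hT'
          rw [hTw]
          exact hT0min T' (Finset.mem_filter.2 ⟨Finset.mem_univ _, hT'⟩)
        have hmincard : ∀ T', S ⊂ T' → wt n (2 * q) F S T' = wt n (2 * q) F S T →
            T.card ≤ T'.card := by
          intro T' hT' hw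
          exact hTmin T' (Finset.mem_filter.2
            ⟨Finset.mem_filter.2 ⟨Finset.mem_univ _, hT'⟩, hw.trans hTw⟩)
        have P1 : 1 ≤ wt n (2 * q) F S T := hgood T hST.subset
        have P2 : ∀ X, S ⊂ X → X ⊂ T → wt n (2 * q) F X T < 1 := by
          intro X hSX hXT
          by_contra hcon
          rw [not_lt] at hcon
          have hmul := wt_mul n (2 * q) F hSX.subset hXT.subset
          have h1 := hmin X hSX
          have hposSX := wt_pos hnpos h2q F S X
          have h2 : wt n (2 * q) F S X ≤ wt n (2 * q) F S T := by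
            rw [hmul]
            nlinarith
          have h3 : wt n (2 * q) F S X = wt n (2 * q) F S T := le_antisymm h2 h1
          have h4 := hmincard X hSX h3
          have h5 := Finset.card_lt_card hXT
          omega
        have P3 : ∀ X, T ⊆ X → 1 ≤ wt n (2 * q) F T X := by
          intro X hTX
          have hmul := wt_mul n (2 * q) F hST.subset hTX
          have hSX : S ⊂ X := Finset.ssubset_of_ssubset_of_subset hST hTX
          have h1 := hmin X hSX
          have hpos := wt_pos hnpos h2q F S T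
          by_contra hcon
          rw [not_le] at hcon
          rw [hmul] at h1
          nlinarith
        have hstep := lsg_step hn H F hq0 hq1 hnq h hW M hM hreg S T hST P1 P2 ψ
        have hk' : (univ \ T).card < k := by
          have e1 := Finset.card_sdiff_add_card_eq_card (Finset.subset_univ T)
          have e2 := Finset.card_sdiff_add_card_eq_card (Finset.subset_univ S)
          have e3 := Finset.card_lt_card hST
          omega
        have hIH : ∀ φ : W → Fin n, ((Ext F H T univ φ).card : ℝ) ≤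
            wt n (2 * q) F T univ * (16 * M ^ 2) ^ (extEdges F T univ).card :=
          fun φ => ih _ hk' T rfl P3 φ
        have hsplit := Ext_split_card F H hST.subset (Finset.subset_univ T) ψ _ hIH
        have hposT := wt_pos hnpos h2q F T univ
        have hN0 : 0 ≤ wt n (2 * q) F T univ * (16 * M ^ 2) ^ (extEdges F T univ).card :=
          mul_nonneg hposT.le (pow_nonneg hK _)
        calc ((Ext F H S univ ψ).card : ℝ)
            ≤ ((Ext F H S T ψ).card : ℝ) *
              (wt n (2 * q) F T univ * (16 * M ^ 2) ^ (extEdges F T univ).card) := hsplit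
          _ ≤ (wt n (2 * q) F S T * (16 * M ^ 2) ^ (extEdges F S T).card) *
              (wt n (2 * q) F T univ * (16 * M ^ 2) ^ (extEdges F T univ).card) :=
              mul_le_mul_of_nonneg_right hstep hN0
          _ = wt n (2 * q) F S univ * (16 * M ^ 2) ^ (extEdges F S univ).card := by
              rw [wt_mul n (2 * q) F hST.subset (Finset.subset_univ T),
                extEdges_card_add F hST.subset (Finset.subset_univ T), pow_add]
              ring
  exact main _ S rfl hgood ψ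

theorem lsg_labelled_pow {n : ℕ} (hn : 2 ≤ n) (H : SimpleGraph (Fin n)) {q : ℝ}
    (hq0 : 0 < q) (hq1 : 2 * q ≤ 1) (hnq : 1 ≤ n * (2 * q)) (h : SubgraphsExpected n H q)
    (M : ℝ) (hM : 1 ≤ M)
    (hreg : ∀ j : ℕ, (n : ℝ) * (2 * q) ^ j < 3 * Real.log n → Real.log n ≤ M ^ j)
    (W : Type) [Fintype W] [DecidableEq W] (F : SimpleGraph W) :
    (H.labelledCopyCount F : ℝ) ≤
      (n : ℝ) ^ Fintype.card W * (32 * q * M ^ 2) ^ F.edgeSet.ncard := by
  classical
  have hnR : (2 : ℝ) ≤ n := by exact_mod_cast hn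
  have hlog0 : 0 ≤ Real.log n := Real.log_nonneg (by linarith)
  rw [labelledCopyCount_eq_natCard]
  by_cases hne : Nonempty (Copy F H)
  swap
  · rw [not_nonempty_iff] at hne
    rw [Nat.card_of_isEmpty]
    simp only [Nat.cast_zero]
    have h0 : 0 ≤ 32 * q * M ^ 2 := by positivity
    positivity
  obtain ⟨f0⟩ := hne
  have hW := weakHyp_of_hyp hq0.le h
  have h1 := ls10_card_copy_le H F (⇑f0)
  have hgood : ∀ X : Finset W, ∅ ⊆ X → 1 ≤ wt n (2 * q) F ∅ X :=
    fun X _ => ls10_good_empty hn hq0 hW F f0 X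
  have h4 := lsg_chain hn H F hq0 hq1 hnq h hW M hM hreg ∅ hgood (⇑f0)
  unfold wt at h4
  rw [Finset.sdiff_empty, Finset.card_univ, ls10_card_extEdges_univ] at h4
  calc (Nat.card (Copy F H) : ℝ) ≤ ((Ext F H ∅ univ (⇑f0)).card : ℝ) := by exact_mod_cast h1
    _ ≤ (n : ℝ) ^ Fintype.card W * (2 * q) ^ F.edgeSet.ncard *
          (16 * M ^ 2) ^ F.edgeSet.ncard := h4
    _ = (n : ℝ) ^ Fintype.card W * (32 * q * M ^ 2) ^ F.edgeSet.ncard := by
        rw [mul_assoc, ← mul_pow]
        ring_nf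

/-- The labelled inequality with a falling factorial, for patterns without isolated vertices. -/
theorem lsg_main {n : ℕ} (hn : 2 ≤ n) (H : SimpleGraph (Fin n)) {q : ℝ}
    (hq0 : 0 < q) (hq1 : 2 * q ≤ 1) (hnq : 1 ≤ n * (2 * q)) (h : SubgraphsExpected n H q)
    (M : ℝ) (hM : 1 ≤ M)
    (hreg : ∀ j : ℕ, (n : ℝ) * (2 * q) ^ j < 3 * Real.log n → Real.log n ≤ M ^ j)
    (W : Type) [Fintype W] (F : SimpleGraph W) (hiso : ∀ w, ∃ w', F.Adj w w') :
    (H.labelledCopyCount F : ℝ) ≤
      (n.descFactorial (Fintype.card W) : ℝ) * (240 * q * M ^ 2) ^ F.edgeSet.ncard := by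
  classical
  have hnR : (2 : ℝ) ≤ n := by exact_mod_cast hn
  have hlog0 : 0 ≤ Real.log n := Real.log_nonneg (by linarith)
  have hql : 0 ≤ q * M ^ 2 := by positivity
  by_cases hw : Fintype.card W ≤ n
  swap
  · rw [labelled_eq_zero_of_card_lt H F (not_le.1 hw)]
    simp only [Nat.cast_zero]
    have h0 : 0 ≤ 240 * q * M ^ 2 := by nlinarith
    positivity
  have hcard2 := card_le_two_mul_edges F hiso
  have hconv := pow_le_exp_pow_mul_descFactorial n (Fintype.card W) hw
  have hexp1 : 1 ≤ Real.exp 1 := Real.one_le_exp (by norm_num)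
  have hD0 : (0 : ℝ) ≤ (n.descFactorial (Fintype.card W) : ℝ) := Nat.cast_nonneg _
  have hexp2 : Real.exp 1 ^ 2 ≤ 7.5 := by
    have h1 : Real.exp 1 < 2.7182818286 := Real.exp_one_lt_d9
    have h0 : (0 : ℝ) < Real.exp 1 := Real.exp_pos 1
    have h2 : Real.exp 1 ^ 2 < 2.7182818286 ^ 2 := by gcongr
    norm_num at h2 ⊢
    linarith
  have hp := lsg_labelled_pow hn H hq0 hq1 hnq h M hM hreg W F
  have h32 : 0 ≤ 32 * q * M ^ 2 := by nlinarith
  set e := F.edgeSet.ncard with he
  calc (H.labelledCopyCount F : ℝ)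
      ≤ (n : ℝ) ^ Fintype.card W * (32 * q * M ^ 2) ^ e := hp
    _ ≤ (Real.exp 1 ^ (Fintype.card W) * (n.descFactorial (Fintype.card W) : ℝ)) *
          (32 * q * M ^ 2) ^ e := by
        gcongr
    _ ≤ (Real.exp 1 ^ (2 * e) * (n.descFactorial (Fintype.card W) : ℝ)) *
          (32 * q * M ^ 2) ^ e := by
        gcongr
    _ = (n.descFactorial (Fintype.card W) : ℝ) *
          (Real.exp 1 ^ 2 * (32 * q * M ^ 2)) ^ e := by
        rw [pow_mul, mul_pow]
        ring
    _ ≤ (n.descFactorial (Fintype.card W) : ℝ) * (240 * q * M ^ 2) ^ e := by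
        have hb : Real.exp 1 ^ 2 * (32 * q * M ^ 2) ≤ 240 * q * M ^ 2 := by
          nlinarith [mul_nonneg (sub_nonneg.2 hexp2) hql]
        have hb0 : 0 ≤ Real.exp 1 ^ 2 * (32 * q * M ^ 2) := by positivity
        exact mul_le_mul_of_nonneg_left (pow_le_pow_left₀ hb0 hb e) hD0

theorem lsg_labelled_desc {n : ℕ} (hn : 2 ≤ n) (H : SimpleGraph (Fin n)) {q : ℝ}
    (hq0 : 0 < q) (hq1 : 2 * q ≤ 1) (hnq : 1 ≤ n * (2 * q)) (h : SubgraphsExpected n H q)
    (M : ℝ) (hM : 1 ≤ M)
    (hreg : ∀ j : ℕ, (n : ℝ) * (2 * q) ^ j < 3 * Real.log n → Real.log n ≤ M ^ j)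
    (F : SimpleGraph (Fin n)) :
    (H.labelledCopyCount F : ℝ) ≤
      (n.factorial : ℝ) * (min 1 (240 * q * M ^ 2)) ^ F.edgeSet.ncard := by
  classical
  by_cases hq : 240 * q * M ^ 2 ≤ 1
  · rw [min_eq_right hq]
    have key := labelled_of_support H F ((240 * q * M ^ 2) ^ F.edgeSet.ncard) ?_
    · rw [Fintype.card_fin, Nat.descFactorial_self] at key
      exact key
    rw [Fintype.card_fin, ← ncard_edgeSet_induce_support F]
    exact lsg_main hn H hq0 hq1 hnq h M hM hreg F.support (F.induce F.support)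
      (induce_support_no_isolated F)
  · rw [not_le] at hq
    rw [min_eq_left hq.le, one_pow, mul_one]
    have h1 := labelled_le_top H F
    rw [labelledCopyCount_top, Fintype.card_fin, Nat.descFactorial_self] at h1
    exact_mod_cast h1

end Vale.Agent.Lib.P064.LS
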