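import Vale.Agent.KK.LS.Defs

/-!
# Extensions of embeddings: basic facts

Elementary facts about `extEdges`, `Ext` and `wt` from `Vale.Agent.KK.LS.Defs`.
-/

namespace Vale.Agent.Lib.P064.LS

open Finset SimpleGraph Vale.Agent.KK Vale.Agent.KK.LS

variable {V W : Type*} [Fintype V] [Fintype W] [DecidableEq W]

theorem mem_extEdges (F : SimpleGraph W) (S T : Finset W) (x y : W) :
    s(x, y) ∈ extEdges F S T ↔ F.Adj x y ∧ x ∈ T ∧ y ∈ T ∧ (x ∉ S ∨ y ∉ S) := by
  classical
  simp only [extEdges, mem_filter, mem_univ, true_and, SimpleGraph.mem_edgeSet, Sym2.mem_iff,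
    forall_eq_or_imp, forall_eq]
  tauto

theorem mem_Ext (F : SimpleGraph W) (H : SimpleGraph V) (S T : Finset W) (ψ φ : W → V) :
    φ ∈ Ext F H S T ψ ↔ (∀ w, w ∉ T \ S → φ w = ψ w) ∧ Set.InjOn φ (T : Set W) ∧
      ∀ x y, F.Adj x y → x ∈ T → y ∈ T → (x ∉ S ∨ y ∉ S) → H.Adj (φ x) (φ y) := by
  classical
  simp only [Vale.Agent.KK.LS.Ext, mem_filter, mem_univ, true_and]

theorem extEdges_self (F : SimpleGraph W) (T : Finset W) : extEdges F T T = ∅ := by
  classical
  refine Finset.eq_empty_of_forall_notMem (fun e => ?_)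
  induction e using Sym2.ind with
  | _ x y =>
    rw [mem_extEdges]
    tauto

theorem extEdges_card_add (F : SimpleGraph W) {S T X : Finset W} (hST : S ⊆ T) (hTX : T ⊆ X) :
    (extEdges F S X).card = (extEdges F S T).card + (extEdges F T X).card := by
  classical
  have hdisj : Disjoint (extEdges F S T) (extEdges F T X) := by
    rw [Finset.disjoint_left]
    intro e
    induction e using Sym2.ind with
    | _ x y =>
      rw [mem_extEdges, mem_extEdges]
      tauto
  have hun : extEdges F S X = extEdges F S T ∪ extEdges F T X := by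
    ext e
    induction e using Sym2.ind with
    | _ x y =>
      rw [mem_union, mem_extEdges, mem_extEdges, mem_extEdges]
      have h1 : x ∈ S → x ∈ T := fun h => hST h
      have h2 : y ∈ S → y ∈ T := fun h => hST h
      have h3 : x ∈ T → x ∈ X := fun h => hTX h
      have h4 : y ∈ T → y ∈ X := fun h => hTX h
      tauto
  rw [hun, card_union_of_disjoint hdisj]

theorem wt_mul (n : ℕ) (r : ℝ) (F : SimpleGraph W) {S T X : Finset W} (hST : S ⊆ T)
    (hTX : T ⊆ X) : wt n r F S X = wt n r F S T * wt n r F T X := by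
  classical
  have hc : (X \ S).card = (T \ S).card + (X \ T).card := by
    have h1 : X \ S = (T \ S) ∪ (X \ T) := by
      ext w
      simp only [mem_union, mem_sdiff]
      have h5 : w ∈ S → w ∈ T := fun h => hST h
      have h6 : w ∈ T → w ∈ X := fun h => hTX h
      tauto
    have h2 : Disjoint (T \ S) (X \ T) := by
      rw [Finset.disjoint_left]
      intro w
      simp only [mem_sdiff]
      tauto
    rw [h1, card_union_of_disjoint h2]
  unfold wt
  rw [hc, extEdges_card_add F hST hTX, pow_add, pow_add]
  ring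

theorem wt_self (n : ℕ) (r : ℝ) (F : SimpleGraph W) (T : Finset W) : wt n r F T T = 1 := by
  classical
  unfold wt
  rw [extEdges_self, sdiff_self]
  simp

theorem wt_pos {n : ℕ} (hn : 0 < n) {r : ℝ} (hr : 0 < r) (F : SimpleGraph W) (S T : Finset W) :
    0 < wt n r F S T := by
  unfold wt
  have hn' : (0 : ℝ) < n := by exact_mod_cast hn
  positivity

theorem Ext_self_card (F : SimpleGraph W) (H : SimpleGraph V) (T : Finset W) (ψ : W → V) :
    (Ext F H T T ψ).card ≤ 1 := by
  classical
  rw [Finset.card_le_one]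
  intro a ha b hb
  rw [mem_Ext] at ha hb
  funext w
  rw [ha.1 w (by simp), hb.1 w (by simp)]

/-- An extension from `X` to `T` is an extension from `insert z X` to `T` of the map that also
prescribes the value at `z`. -/
theorem Ext_update (F : SimpleGraph W) (H : SimpleGraph V) {X T : Finset W} {ψ φ : W → V}
    (hφ : φ ∈ Ext F H X T ψ) {z : W} (hz : z ∈ T \ X) :
    φ ∈ Ext F H (insert z X) T (Function.update ψ z (φ z)) := by
  classical
  rw [mem_Ext] at hφ ⊢
  obtain ⟨h1, h2, h3⟩ := hφ
  refine ⟨fun w hw => ?_, h2, fun x y hxy hx hy hor => h3 x y hxy hx hy ?_⟩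
  · by_cases hwz : w = z
    · subst hwz
      simp
    · rw [Function.update_of_ne hwz]
      apply h1
      simp only [mem_sdiff, mem_insert, not_and, not_not] at hw ⊢
      intro hwT
      rcases hw hwT with h | h
      · exact absurd h hwz
      · exact h
  · rcases hor with h | h
    · left
      intro hx'
      exact h (mem_insert_of_mem hx')
    · right
      intro hy'
      exact h (mem_insert_of_mem hy')

/-- Splitting an extension from `S` to `X` at an intermediate set `T`. -/
theorem Ext_split_card (F : SimpleGraph W) (H : SimpleGraph V) {S T X : Finset W} (hST : S ⊆ T)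
    (hTX : T ⊆ X) (ψ : W → V) (N : ℝ) (hN : ∀ φ : W → V, ((Ext F H T X φ).card : ℝ) ≤ N) :
    ((Ext F H S X ψ).card : ℝ) ≤ ((Ext F H S T ψ).card : ℝ) * N := by
  classical
  have hsub : Ext F H S X ψ ⊆ (Ext F H S T ψ).biUnion (fun ρ => Ext F H T X ρ) := by
    intro χ hχ
    rw [mem_Ext] at hχ
    obtain ⟨h1, h2, h3⟩ := hχ
    rw [mem_biUnion]
    refine ⟨fun w => if w ∈ T then χ w else ψ w, ?_, ?_⟩
    · rw [mem_Ext]
      refine ⟨fun w hw => ?_, fun a ha b hb hab => ?_, fun x y hxy hx hy hor => ?_⟩
      · by_cases hwT : w ∈ T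
        · simp only [hwT, if_true]
          apply h1
          simp only [mem_sdiff, not_and, not_not] at hw ⊢
          intro _
          exact hw hwT
        · simp only [hwT, if_false]
      · have haT : a ∈ T := ha
        have hbT : b ∈ T := hb
        simp only [haT, hbT, if_true] at hab
        exact h2 (hTX haT) (hTX hbT) hab
      · simp only [hx, hy, if_true]
        exact h3 x y hxy (hTX hx) (hTX hy) hor
    · rw [mem_Ext]
      refine ⟨fun w hw => ?_, h2, fun x y hxy hx hy hor => h3 x y hxy hx hy ?_⟩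
      · by_cases hwT : w ∈ T
        · simp only [hwT, if_true]
        · simp only [hwT, if_false]
          apply h1
          simp only [mem_sdiff, not_and, not_not] at hw ⊢
          intro hwX
          exact absurd (hw hwX) hwT
      · rcases hor with h | h
        · left
          exact fun hx' => h (hST hx')
        · right
          exact fun hy' => h (hST hy')
  have hcard : (Ext F H S X ψ).card ≤ ∑ ρ ∈ Ext F H S T ψ, (Ext F H T X ρ).card :=
    (card_le_card hsub).trans card_biUnion_le
  calc ((Ext F H S X ψ).card : ℝ)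
      ≤ ((∑ ρ ∈ Ext F H S T ψ, (Ext F H T X ρ).card : ℕ) : ℝ) := by exact_mod_cast hcard
    _ = ∑ ρ ∈ Ext F H S T ψ, ((Ext F H T X ρ).card : ℝ) := by push_cast; rfl
    _ ≤ ∑ ρ ∈ Ext F H S T ψ, N := Finset.sum_le_sum (fun ρ _ => hN ρ)
    _ = ((Ext F H S T ψ).card : ℝ) * N := by rw [sum_const, nsmul_eq_mul]

/-- The trivial bound: an extension is determined by its values on `T \ S`. -/
theorem Ext_card_le_pow (F : SimpleGraph W) (H : SimpleGraph V) (S T : Finset W) (ψ : W → V) :
    (Ext F H S T ψ).card ≤ Fintype.card V ^ (T \ S).card := by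
  classical
  have hinj : Set.InjOn (fun (φ : W → V) (w : {w // w ∈ T \ S}) => φ w.1)
      (Ext F H S T ψ : Set (W → V)) := by
    intro a ha b hb hab
    rw [mem_coe, mem_Ext] at ha hb
    funext w
    by_cases hw : w ∈ T \ S
    · exact congrFun hab ⟨w, hw⟩
    · rw [ha.1 w hw, hb.1 w hw]
  calc (Ext F H S T ψ).card
      = ((Ext F H S T ψ).image (fun (φ : W → V) (w : {w // w ∈ T \ S}) => φ w.1)).card :=
        (card_image_of_injOn hinj).symm
    _ ≤ (univ : Finset ({w // w ∈ T \ S} → V)).card := card_le_card (subset_univ _)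
    _ = Fintype.card V ^ (T \ S).card := by
        rw [card_univ, Fintype.card_fun, Fintype.card_coe]

end Vale.Agent.Lib.P064.LS
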