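import Vale.Agent.KK.LS.Defs

namespace Vale.Agent.Lib.P064.LS

open Finset SimpleGraph Vale.Agent.KK Vale.Agent.KK.LS

variable {V W : Type*} [Fintype V] [Fintype W] [DecidableEq W]

/-- (A): a factorial bound forces `t` to be small. -/
theorem ls8_t_le (n e t : ℕ) (hn : 2 ≤ n) (μ : ℝ) (hμ : 0 < μ)
    (ht : (t.factorial : ℝ) ≤ (n : ℝ) ^ e * μ ^ t) :
    (t : ℝ) ≤ Real.exp 1 ^ 2 * μ + e * Real.log n := by
  have hL : 0 ≤ Real.log n := Real.log_natCast_nonneg n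
  have hE : 0 < Real.exp 1 := Real.exp_pos 1
  have hn0 : (0 : ℝ) < (n : ℝ) := by
    have : (2 : ℝ) ≤ (n : ℝ) := by exact_mod_cast hn
    linarith
  by_cases hcase : (t : ℝ) ≤ Real.exp 1 ^ 2 * μ
  · have : 0 ≤ (e : ℝ) * Real.log n := by positivity
    linarith
  · push Not at hcase
    have h1 : (t : ℝ) ^ t / (t.factorial : ℝ) ≤ Real.exp t :=
      Real.pow_div_factorial_le_exp (t : ℝ) (Nat.cast_nonneg t) t
    have hfact : 0 < (t.factorial : ℝ) := by exact_mod_cast Nat.factorial_pos t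
    have h2 : (t : ℝ) ^ t ≤ Real.exp t * (t.factorial : ℝ) := by
      rwa [div_le_iff₀ hfact] at h1
    have h3 : (t : ℝ) ^ t ≤ Real.exp t * ((n : ℝ) ^ e * μ ^ t) :=
      h2.trans (mul_le_mul_of_nonneg_left ht (Real.exp_pos _).le)
    have h4 : (Real.exp 1 ^ 2 * μ) ^ t ≤ (t : ℝ) ^ t :=
      pow_le_pow_left₀ (by positivity) hcase.le t
    have h5 : Real.exp t = Real.exp 1 ^ t := by
      rw [← Real.exp_nat_mul]; simp
    have h6 : (Real.exp 1 ^ 2 * μ) ^ t = Real.exp 1 ^ t * (Real.exp 1 ^ t * μ ^ t) := by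
      rw [mul_pow, ← pow_mul, two_mul, pow_add]; ring
    have h7 : Real.exp 1 ^ t * (Real.exp 1 ^ t * μ ^ t)
        ≤ (n : ℝ) ^ e * (Real.exp 1 ^ t * μ ^ t) := by
      calc Real.exp 1 ^ t * (Real.exp 1 ^ t * μ ^ t) = (Real.exp 1 ^ 2 * μ) ^ t := h6.symm
        _ ≤ (t : ℝ) ^ t := h4
        _ ≤ Real.exp t * ((n : ℝ) ^ e * μ ^ t) := h3
        _ = (n : ℝ) ^ e * (Real.exp 1 ^ t * μ ^ t) := by rw [h5]; ring
    have hpos : 0 < Real.exp 1 ^ t * μ ^ t := by positivity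
    have h8 : Real.exp 1 ^ t ≤ (n : ℝ) ^ e := le_of_mul_le_mul_right h7 hpos
    have h9 : (t : ℝ) ≤ e * Real.log n := by
      have := Real.log_le_log (by positivity) h8
      rwa [← h5, Real.log_exp, Real.log_pow] at this
    have : 0 ≤ Real.exp 1 ^ 2 * μ := by positivity
    linarith

/-- (B): the ceiling logarithm is at most three natural logarithms. -/
theorem ls8_clog_le (n : ℕ) (hn : 2 ≤ n) : (Nat.clog 2 n : ℝ) ≤ 3 * Real.log n := by
  have hlog2 : (0.6931471803 : ℝ) < Real.log 2 := Real.log_two_gt_d9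
  have hL : Real.log 2 ≤ Real.log n :=
    Real.log_le_log (by norm_num) (by exact_mod_cast hn)
  have hB : 2 ^ (Nat.clog 2 n).pred < n :=
    Nat.pow_pred_clog_lt_self (by norm_num) (by omega)
  have hB' : ((2 : ℝ) ^ (Nat.clog 2 n).pred) < (n : ℝ) := by exact_mod_cast hB
  have h1 : ((Nat.clog 2 n).pred : ℝ) * Real.log 2 < Real.log n := by
    have := Real.log_lt_log (by positivity) hB'
    rwa [Real.log_pow] at this
  have hpos : 1 ≤ Nat.clog 2 n := Nat.clog_pos (by norm_num) hn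
  have hpred : ((Nat.clog 2 n).pred : ℝ) = (Nat.clog 2 n : ℝ) - 1 := by
    rw [Nat.pred_eq_sub_one, Nat.cast_sub hpos]; simp
  rw [hpred] at h1
  have hB0 : (0 : ℝ) ≤ (Nat.clog 2 n : ℝ) := Nat.cast_nonneg _
  have hprod : 0 ≤ (Nat.clog 2 n : ℝ) * (Real.log 2 - 0.6931471803) :=
    mul_nonneg hB0 (by linarith)
  nlinarith

/-- `e * x ≤ x ^ e` for `x ≥ 2` and `e ≥ 1`. -/
theorem ls8_mul_le_pow (x : ℝ) (hx : 2 ≤ x) (e : ℕ) (he : 1 ≤ e) : (e : ℝ) * x ≤ x ^ e := by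
  induction e, he using Nat.le_induction with
  | base => simp
  | succ k hk ih =>
    have hk1 : (1 : ℝ) ≤ (k : ℝ) := by exact_mod_cast hk
    have hx0 : 0 ≤ x := by linarith
    have : x ^ (k + 1) = x ^ k * x := pow_succ x k
    rw [this]
    have h2 : (k : ℝ) * x * x ≤ x ^ k * x := mul_le_mul_of_nonneg_right ih hx0
    push_cast
    nlinarith [mul_nonneg (by linarith : (0 : ℝ) ≤ (k : ℝ)) hx0,
      mul_nonneg (mul_nonneg (by linarith : (0 : ℝ) ≤ (k : ℝ)) hx0) (by linarith : (0 : ℝ) ≤ x - 2)]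

/-- The polynomial-versus-exponential inequality used for `m ≥ 2`. -/
theorem ls8_poly_le (e : ℕ) (he : 2 ≤ e) :
    (e : ℝ) ^ 2 * (5.4 + e) ≤ 16 * (16 / 3 : ℝ) ^ (e - 1) := by
  induction e, he using Nat.le_induction with
  | base => norm_num
  | succ k hk ih =>
    have hk2 : (2 : ℝ) ≤ (k : ℝ) := by exact_mod_cast hk
    have hk1 : 1 ≤ k := by omega
    have hpow : (16 / 3 : ℝ) ^ (k + 1 - 1) = (16 / 3 : ℝ) ^ (k - 1) * (16 / 3) := by
      have : k + 1 - 1 = (k - 1) + 1 := by omega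
      rw [this, pow_succ]
    rw [hpow]
    push_cast
    nlinarith [mul_nonneg (by linarith : (0 : ℝ) ≤ (k : ℝ)) (by linarith : (0 : ℝ) ≤ (k : ℝ) - 2),
      mul_nonneg (mul_nonneg (by linarith : (0 : ℝ) ≤ (k : ℝ)) (by linarith : (0 : ℝ) ≤ (k : ℝ)))
        (by linarith : (0 : ℝ) ≤ (k : ℝ) - 2)]

theorem step_arith {n : ℕ} (hn : 2 ≤ n) (m e t : ℕ) (q : ℝ) (hq0 : 0 < q)
    (hm : 1 ≤ m) (he : 1 ≤ e) (hme : m = 1 ∨ m ≤ e)
    (hw1 : 1 ≤ (n : ℝ) ^ m * (2 * q) ^ e)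
    (ht : (t.factorial : ℝ) ≤ (n : ℝ) ^ e * ((n : ℝ) ^ m * q ^ e) ^ t) :
    ((m ^ 2 * t * (Nat.clog 2 n) ^ (m - 1) : ℕ) : ℝ) ≤
      (n : ℝ) ^ m * (2 * q) ^ e * (16 * Real.log n) ^ e := by
  have hn2 : (2 : ℝ) ≤ (n : ℝ) := by exact_mod_cast hn
  have hn0 : (0 : ℝ) < (n : ℝ) := by linarith
  have hlog2 : (0.6931471803 : ℝ) < Real.log 2 := Real.log_two_gt_d9
  have hL2 : Real.log 2 ≤ Real.log n := Real.log_le_log (by norm_num) hn2
  have hL : (0.6931471803 : ℝ) < Real.log n := by linarith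
  have hμ : 0 < (n : ℝ) ^ m * q ^ e := by positivity
  have hμ1 : (n : ℝ) ^ m * (2 * q) ^ e = 2 ^ e * ((n : ℝ) ^ m * q ^ e) := by
    rw [mul_pow]; ring
  have h2e : (2 : ℝ) ≤ 2 ^ e := by
    calc (2 : ℝ) = 2 ^ 1 := by norm_num
      _ ≤ 2 ^ e := pow_le_pow_right₀ (by norm_num) he
  have hA := ls8_t_le n e t hn _ hμ ht
  have hB := ls8_clog_le n hn
  have hE : Real.exp 1 < 2.7182818286 := Real.exp_one_lt_d9
  have hE0 : 0 < Real.exp 1 := Real.exp_pos 1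
  have hE2 : Real.exp 1 ^ 2 < 7.39 := by nlinarith
  have he1 : (1 : ℝ) ≤ (e : ℝ) := by exact_mod_cast he
  have heL : 0 ≤ (e : ℝ) * Real.log n := by
    have : (0 : ℝ) ≤ Real.log n := by linarith
    positivity
  -- (C): t ≤ μ1 * (3.7 + e L)
  have hC : (t : ℝ) ≤ (n : ℝ) ^ m * (2 * q) ^ e * (3.7 + e * Real.log n) := by
    have hμle : (n : ℝ) ^ m * q ^ e ≤ (n : ℝ) ^ m * (2 * q) ^ e / 2 := by
      rw [hμ1]; nlinarith
    have h1 : Real.exp 1 ^ 2 * ((n : ℝ) ^ m * q ^ e)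
        ≤ 7.39 * ((n : ℝ) ^ m * (2 * q) ^ e / 2) := by
      have := mul_le_mul hE2.le hμle hμ.le (by norm_num : (0 : ℝ) ≤ 7.39)
      exact this
    nlinarith
  have hμ1pos : 0 < (n : ℝ) ^ m * (2 * q) ^ e := by positivity
  have h16 : (11 : ℝ) ≤ 16 * Real.log n := by linarith
  have h3L : (1 : ℝ) ≤ 3 * Real.log n := by linarith
  have hB0 : (0 : ℝ) ≤ (Nat.clog 2 n : ℝ) := Nat.cast_nonneg _
  have ht0 : (0 : ℝ) ≤ (t : ℝ) := Nat.cast_nonneg _
  push_cast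
  rcases hme with rfl | hme
  · -- m = 1
    have h1 : (e : ℝ) * (16 * Real.log n) ≤ (16 * Real.log n) ^ e :=
      ls8_mul_le_pow _ (by linarith) e he
    have h2 : (3.7 : ℝ) + e * Real.log n ≤ (16 * Real.log n) ^ e := by nlinarith
    simp only [Nat.cast_one, one_pow, one_mul, Nat.sub_self, pow_zero, mul_one]
    calc (t : ℝ) ≤ (n : ℝ) ^ 1 * (2 * q) ^ e * (3.7 + e * Real.log n) := hC
      _ ≤ (n : ℝ) ^ 1 * (2 * q) ^ e * (16 * Real.log n) ^ e :=
        mul_le_mul_of_nonneg_left h2 hμ1pos.le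
  · -- 2 ≤ m ≤ e (or m = 1 again, handled uniformly when m ≥ 2)
    by_cases hm1 : m = 1
    · subst hm1
      have h1 : (e : ℝ) * (16 * Real.log n) ≤ (16 * Real.log n) ^ e :=
        ls8_mul_le_pow _ (by linarith) e he
      have h2 : (3.7 : ℝ) + e * Real.log n ≤ (16 * Real.log n) ^ e := by nlinarith
      simp only [Nat.cast_one, one_pow, one_mul, Nat.sub_self, pow_zero, mul_one]
      calc (t : ℝ) ≤ (n : ℝ) ^ 1 * (2 * q) ^ e * (3.7 + e * Real.log n) := hC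
        _ ≤ (n : ℝ) ^ 1 * (2 * q) ^ e * (16 * Real.log n) ^ e :=
          mul_le_mul_of_nonneg_left h2 hμ1pos.le
    · have hm2 : 2 ≤ m := by omega
      have he2 : 2 ≤ e := le_trans hm2 hme
      have hmR : (m : ℝ) ≤ (e : ℝ) := by exact_mod_cast hme
      have hm0 : (0 : ℝ) ≤ (m : ℝ) := Nat.cast_nonneg _
      have hm2le : (m : ℝ) ^ 2 ≤ (e : ℝ) ^ 2 := pow_le_pow_left₀ hm0 hmR 2
      have hBpow : (Nat.clog 2 n : ℝ) ^ (m - 1) ≤ (3 * Real.log n) ^ (e - 1) := by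
        calc (Nat.clog 2 n : ℝ) ^ (m - 1) ≤ (3 * Real.log n) ^ (m - 1) :=
              pow_le_pow_left₀ hB0 hB (m - 1)
          _ ≤ (3 * Real.log n) ^ (e - 1) :=
              pow_le_pow_right₀ h3L (by omega)
      have hpoly := ls8_poly_le e he2
      have h3Lpos : 0 < (3 * Real.log n) ^ (e - 1) := by
        have : (0 : ℝ) < 3 * Real.log n := by linarith
        positivity
      have hsplit : (16 * Real.log n) ^ e
          = 16 * Real.log n * ((16 / 3 : ℝ) ^ (e - 1) * (3 * Real.log n) ^ (e - 1)) := by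
        have : e = (e - 1) + 1 := by omega
        conv_lhs => rw [this, pow_succ]
        rw [← mul_pow]
        have : (16 / 3 : ℝ) * (3 * Real.log n) = 16 * Real.log n := by ring
        rw [this]; ring
      -- main chain
      have hLpos : (0 : ℝ) < Real.log n := by linarith
      have hstep1 : (m : ℝ) ^ 2 * t * (Nat.clog 2 n : ℝ) ^ (m - 1)
          ≤ (e : ℝ) ^ 2 * ((n : ℝ) ^ m * (2 * q) ^ e * (3.7 + e * Real.log n))
            * (3 * Real.log n) ^ (e - 1) := by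
        have ha : (m : ℝ) ^ 2 * t ≤ (e : ℝ) ^ 2 * ((n : ℝ) ^ m * (2 * q) ^ e * (3.7 + e * Real.log n)) :=
          mul_le_mul hm2le hC ht0 (by positivity)
        exact mul_le_mul ha hBpow (by positivity) (by positivity)
      have hstep2 : (e : ℝ) ^ 2 * (3.7 + e * Real.log n) ≤ 16 * Real.log n * (16 / 3 : ℝ) ^ (e - 1) := by
        have h37 : (3.7 : ℝ) ≤ 5.4 * Real.log n := by linarith
        have hx : (e : ℝ) ^ 2 * (3.7 + e * Real.log n) ≤ (e : ℝ) ^ 2 * (5.4 + e) * Real.log n := by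
          have : (0 : ℝ) ≤ (e : ℝ) ^ 2 := by positivity
          nlinarith
        have hy : (e : ℝ) ^ 2 * (5.4 + e) * Real.log n ≤ 16 * (16 / 3 : ℝ) ^ (e - 1) * Real.log n :=
          mul_le_mul_of_nonneg_right hpoly hLpos.le
        linarith
      calc (m : ℝ) ^ 2 * t * (Nat.clog 2 n : ℝ) ^ (m - 1)
          ≤ (e : ℝ) ^ 2 * ((n : ℝ) ^ m * (2 * q) ^ e * (3.7 + e * Real.log n))
            * (3 * Real.log n) ^ (e - 1) := hstep1
        _ = (n : ℝ) ^ m * (2 * q) ^ e * (((e : ℝ) ^ 2 * (3.7 + e * Real.log n))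
            * (3 * Real.log n) ^ (e - 1)) := by ring
        _ ≤ (n : ℝ) ^ m * (2 * q) ^ e * ((16 * Real.log n * (16 / 3 : ℝ) ^ (e - 1))
            * (3 * Real.log n) ^ (e - 1)) :=
          mul_le_mul_of_nonneg_left (mul_le_mul_of_nonneg_right hstep2 h3Lpos.le) hμ1pos.le
        _ = (n : ℝ) ^ m * (2 * q) ^ e * (16 * Real.log n) ^ e := by rw [hsplit]; ring

end Vale.Agent.Lib.P064.LS
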