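import Vale.Agent.KK.LS.Defs

/-!
# The union of all extensions of a rigid problem is small

For a rigid extension problem from `X` to `T` at density `2 * q`, the union over all extensions
of the images of the extension edges is a subgraph of the host with at most
`|att F X T| * log2 n` edges: `2 ^ |unionEdges| ≤ n ^ |att|`.  The extensions are added one at
a time; the new vertices and edges of one extension form an extension problem from an
intermediate set, whose weight is at most one by rigidity.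
-/

namespace Vale.Agent.Lib.P064.LS

open Finset SimpleGraph Vale.Agent.KK Vale.Agent.KK.LS

variable {V W : Type*} [Fintype V] [Fintype W] [DecidableEq W]

theorem ls2x_mem_extEdges (F : SimpleGraph W) (S T : Finset W) (x y : W) :
    s(x, y) ∈ extEdges F S T ↔ F.Adj x y ∧ x ∈ T ∧ y ∈ T ∧ (x ∉ S ∨ y ∉ S) := by
  classical
  unfold extEdges
  rw [Finset.mem_filter]
  simp only [Finset.mem_univ, true_and, SimpleGraph.mem_edgeSet, Sym2.mem_iff, forall_eq_or_imp,
    forall_eq]
  tauto

theorem ls2x_mem_Ext (F : SimpleGraph W) (H : SimpleGraph V) (S T : Finset W) (ψ φ : W → V) :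
    φ ∈ Ext F H S T ψ ↔ (∀ w, w ∉ T \ S → φ w = ψ w) ∧ Set.InjOn φ (T : Set W) ∧
      ∀ x y, F.Adj x y → x ∈ T → y ∈ T → (x ∉ S ∨ y ∉ S) → H.Adj (φ x) (φ y) := by
  classical
  unfold Vale.Agent.KK.LS.Ext
  rw [Finset.mem_filter]
  simp only [Finset.mem_univ, true_and]

open Classical in
/-- The vertices used so far: the images of the attachment vertices and of the new vertices
of the extensions in `G`. -/
noncomputable def ls2x_Vu (F : SimpleGraph W) (X T : Finset W) (ψ : W → V)
    (G : Finset (W → V)) : Finset V :=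
  (att F X T).image ψ ∪ G.biUnion (fun φ => (T \ X).image φ)

open Classical in
/-- The edges used so far: the images of the extension edges under the extensions in `G`. -/
noncomputable def ls2x_Eu (F : SimpleGraph W) (X T : Finset W) (G : Finset (W → V)) :
    Finset (Sym2 V) :=
  G.biUnion (fun φ => (extEdges F X T).image (Sym2.map φ))

omit [Fintype V] [Fintype W] in
theorem ls2x_mem_Vu (F : SimpleGraph W) (X T : Finset W) (ψ : W → V) (G : Finset (W → V))
    (v : V) : v ∈ ls2x_Vu F X T ψ G ↔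
      (∃ y ∈ att F X T, ψ y = v) ∨ ∃ φ ∈ G, ∃ z ∈ T \ X, φ z = v := by
  classical
  unfold ls2x_Vu
  rw [Finset.mem_union, Finset.mem_image, Finset.mem_biUnion]
  simp only [Finset.mem_image]

omit [Fintype V] in
theorem ls2x_mem_Eu (F : SimpleGraph W) (X T : Finset W) (G : Finset (W → V)) (d : Sym2 V) :
    d ∈ ls2x_Eu F X T G ↔ ∃ φ ∈ G, ∃ e ∈ extEdges F X T, Sym2.map φ e = d := by
  classical
  unfold ls2x_Eu
  rw [Finset.mem_biUnion]
  simp only [Finset.mem_image]

/-- Both endpoints of a used edge are used vertices. -/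
theorem ls2x_endpoint (F : SimpleGraph W) (H : SimpleGraph V) (X T : Finset W) (ψ : W → V)
    (G : Finset (W → V)) (hG : G ⊆ Ext F H X T ψ) {d : Sym2 V} (hd : d ∈ ls2x_Eu F X T G)
    {v : V} (hv : v ∈ d) : v ∈ ls2x_Vu F X T ψ G := by
  classical
  rw [ls2x_mem_Eu] at hd
  obtain ⟨φ', hφ'G, e, he, rfl⟩ := hd
  have hφ' := hG hφ'G
  rw [ls2x_mem_Ext] at hφ'
  obtain ⟨hφψ, -, -⟩ := hφ'
  -- a vertex of an extension edge is mapped to a used vertex
  have key : ∀ u u' : W, F.Adj u u' → u ∈ T → u' ∈ T → (u ∉ X ∨ u' ∉ X) →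
      φ' u ∈ ls2x_Vu F X T ψ G := by
    intro u u' hadj huT hu'T hor
    rw [ls2x_mem_Vu]
    by_cases hu : u ∈ X
    · left
      have hu' : u' ∉ X := by
        rcases hor with h | h
        · exact absurd hu h
        · exact h
      refine ⟨u, ?_, ?_⟩
      · unfold att
        rw [Finset.mem_filter]
        exact ⟨hu, u', Finset.mem_sdiff.mpr ⟨hu'T, hu'⟩, hadj⟩
      · refine (hφψ u ?_).symm
        rw [Finset.mem_sdiff]
        exact fun h => h.2 hu
    · right
      exact ⟨φ', hφ'G, u, Finset.mem_sdiff.mpr ⟨huT, hu⟩, rfl⟩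
  induction e using Sym2.ind with
  | _ x y =>
    rw [ls2x_mem_extEdges] at he
    obtain ⟨hadj, hxT, hyT, hor⟩ := he
    rw [Sym2.map_mk, Sym2.mem_iff] at hv
    rcases hv with rfl | rfl
    · exact key x y hadj hxT hyT hor
    · exact key y x hadj.symm hyT hxT hor.symm

/-- Adding one extension multiplies the invariant by the weight of an intermediate extension
problem, which is at most one by rigidity. -/
theorem ls2x_step {n : ℕ} (hn : 1 ≤ n) (H : SimpleGraph (Fin n)) (F : SimpleGraph W) {r : ℝ}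
    (hr0 : 0 < r) (hr1 : r ≤ 1) (X T : Finset W) (hXT : X ⊆ T) (hR : Rigid n r F X T)
    (ψ : W → Fin n) (G : Finset (W → Fin n)) (hG : G ⊆ Ext F H X T ψ) (φ : W → Fin n)
    (hφ : φ ∈ Ext F H X T ψ) :
    (n : ℝ) ^ (ls2x_Vu F X T ψ (insert φ G)).card * r ^ (ls2x_Eu F X T (insert φ G)).card
      ≤ (n : ℝ) ^ (ls2x_Vu F X T ψ G).card * r ^ (ls2x_Eu F X T G).card := by
  classical
  rw [ls2x_mem_Ext] at hφ
  obtain ⟨-, hφinj, -⟩ := hφ
  set X' : Finset W := X ∪ (T \ X).filter (fun z => φ z ∈ ls2x_Vu F X T ψ G) with hX'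
  have hXX' : X ⊆ X' := Finset.subset_union_left
  have hX'T : X' ⊆ T :=
    Finset.union_subset hXT ((Finset.filter_subset _ _).trans Finset.sdiff_subset)
  have hnotX' : ∀ x, x ∈ T → x ∉ X' → x ∉ X ∧ φ x ∉ ls2x_Vu F X T ψ G := by
    intro x hxT hx
    have hxX : x ∉ X := fun h => hx (Finset.mem_union_left _ h)
    refine ⟨hxX, fun hv => hx (Finset.mem_union_right _ ?_)⟩
    rw [Finset.mem_filter, Finset.mem_sdiff]
    exact ⟨⟨hxT, hxX⟩, hv⟩
  -- vertices
  have hV : (ls2x_Vu F X T ψ (insert φ G)).card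
      ≤ (ls2x_Vu F X T ψ G).card + (T \ X').card := by
    have hsub : ls2x_Vu F X T ψ (insert φ G) ⊆ ls2x_Vu F X T ψ G ∪ (T \ X').image φ := by
      intro v hv
      rw [ls2x_mem_Vu] at hv
      rcases hv with hv | ⟨φ', hφ', z, hz, rfl⟩
      · exact Finset.mem_union_left _ ((ls2x_mem_Vu F X T ψ G v).mpr (Or.inl hv))
      · rw [Finset.mem_insert] at hφ'
        rcases hφ' with rfl | hφ'
        · by_cases hzv : φ' z ∈ ls2x_Vu F X T ψ G
          · exact Finset.mem_union_left _ hzv
          · refine Finset.mem_union_right _ (Finset.mem_image.mpr ⟨z, ?_, rfl⟩)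
            rw [Finset.mem_sdiff] at hz ⊢
            refine ⟨hz.1, fun hzX' => ?_⟩
            rcases Finset.mem_union.mp hzX' with h | h
            · exact hz.2 h
            · exact hzv (Finset.mem_filter.mp h).2
        · exact Finset.mem_union_left _
            ((ls2x_mem_Vu F X T ψ G _).mpr (Or.inr ⟨φ', hφ', z, hz, rfl⟩))
    calc (ls2x_Vu F X T ψ (insert φ G)).card
        ≤ (ls2x_Vu F X T ψ G ∪ (T \ X').image φ).card := Finset.card_le_card hsub
      _ ≤ (ls2x_Vu F X T ψ G).card + ((T \ X').image φ).card := Finset.card_union_le _ _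
      _ ≤ (ls2x_Vu F X T ψ G).card + (T \ X').card :=
          Nat.add_le_add_left Finset.card_image_le _
  -- edges
  have hE : (ls2x_Eu F X T G).card + (extEdges F X' T).card
      ≤ (ls2x_Eu F X T (insert φ G)).card := by
    have hinj : Set.InjOn (Sym2.map φ) (extEdges F X' T : Set (Sym2 W)) := by
      intro e he e' he' heq
      induction e using Sym2.ind with
      | _ x y =>
        induction e' using Sym2.ind with
        | _ x' y' =>
          rw [Finset.mem_coe, ls2x_mem_extEdges] at he he'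
          rw [Sym2.map_mk, Sym2.map_mk, Sym2.eq_iff] at heq
          rw [Sym2.eq_iff]
          rcases heq with ⟨h1, h2⟩ | ⟨h1, h2⟩
          · exact Or.inl ⟨hφinj he.2.1 he'.2.1 h1, hφinj he.2.2.1 he'.2.2.1 h2⟩
          · exact Or.inr ⟨hφinj he.2.1 he'.2.2.1 h1, hφinj he.2.2.1 he'.2.1 h2⟩
    have hdisj : Disjoint (ls2x_Eu F X T G) ((extEdges F X' T).image (Sym2.map φ)) := by
      rw [Finset.disjoint_left]
      intro d hd hd'
      rw [Finset.mem_image] at hd'
      obtain ⟨e, he, rfl⟩ := hd'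
      induction e using Sym2.ind with
      | _ x y =>
        rw [ls2x_mem_extEdges] at he
        obtain ⟨-, hxT, hyT, hor⟩ := he
        rcases hor with hx | hy
        · refine (hnotX' x hxT hx).2 (ls2x_endpoint F H X T ψ G hG hd ?_)
          rw [Sym2.map_mk]
          exact Sym2.mem_mk_left _ _
        · refine (hnotX' y hyT hy).2 (ls2x_endpoint F H X T ψ G hG hd ?_)
          rw [Sym2.map_mk]
          exact Sym2.mem_mk_right _ _
    have hsub : ls2x_Eu F X T G ∪ (extEdges F X' T).image (Sym2.map φ)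
        ⊆ ls2x_Eu F X T (insert φ G) := by
      intro d hd
      rcases Finset.mem_union.mp hd with hd | hd
      · obtain ⟨φ', hφ', e, he, rfl⟩ := (ls2x_mem_Eu F X T G d).mp hd
        exact (ls2x_mem_Eu F X T _ _).mpr ⟨φ', Finset.mem_insert_of_mem hφ', e, he, rfl⟩
      · obtain ⟨e, he, rfl⟩ := Finset.mem_image.mp hd
        refine (ls2x_mem_Eu F X T _ _).mpr ⟨φ, Finset.mem_insert_self _ _, e, ?_, rfl⟩
        induction e using Sym2.ind with
        | _ x y =>
          rw [ls2x_mem_extEdges] at he ⊢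
          refine ⟨he.1, he.2.1, he.2.2.1, ?_⟩
          rcases he.2.2.2 with h | h
          · exact Or.inl (fun hx => h (hXX' hx))
          · exact Or.inr (fun hy => h (hXX' hy))
    calc (ls2x_Eu F X T G).card + (extEdges F X' T).card
        = (ls2x_Eu F X T G ∪ (extEdges F X' T).image (Sym2.map φ)).card := by
          rw [Finset.card_union_of_disjoint hdisj, Finset.card_image_of_injOn hinj]
      _ ≤ (ls2x_Eu F X T (insert φ G)).card := Finset.card_le_card hsub
  -- weight of the intermediate problem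
  have hwt : (n : ℝ) ^ (T \ X').card * r ^ (extEdges F X' T).card ≤ 1 := by
    by_cases hEq : X' = T
    · rw [hEq, Finset.sdiff_self, Finset.card_empty, pow_zero, one_mul]
      exact pow_le_one₀ hr0.le hr1
    · have hlt := hR X' hXX' (Finset.ssubset_iff_subset_ne.mpr ⟨hX'T, hEq⟩)
      unfold wt at hlt
      exact hlt.le
  have hn1 : (1 : ℝ) ≤ n := by exact_mod_cast hn
  have hn0 : (0 : ℝ) < n := by linarith
  calc (n : ℝ) ^ (ls2x_Vu F X T ψ (insert φ G)).card * r ^ (ls2x_Eu F X T (insert φ G)).card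
      ≤ (n : ℝ) ^ ((ls2x_Vu F X T ψ G).card + (T \ X').card)
          * r ^ ((ls2x_Eu F X T G).card + (extEdges F X' T).card) :=
        mul_le_mul (pow_le_pow_right₀ hn1 hV) (pow_le_pow_of_le_one hr0.le hr1 hE)
          (by positivity) (by positivity)
    _ = ((n : ℝ) ^ (ls2x_Vu F X T ψ G).card * r ^ (ls2x_Eu F X T G).card)
          * ((n : ℝ) ^ (T \ X').card * r ^ (extEdges F X' T).card) := by
        rw [pow_add, pow_add]
        ring
    _ ≤ ((n : ℝ) ^ (ls2x_Vu F X T ψ G).card * r ^ (ls2x_Eu F X T G).card) * 1 :=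
        mul_le_mul_of_nonneg_left hwt (by positivity)
    _ = (n : ℝ) ^ (ls2x_Vu F X T ψ G).card * r ^ (ls2x_Eu F X T G).card := mul_one _

/-- The invariant: used vertices and used edges weigh at most `n ^ |att|`. -/
theorem ls2x_inv {n : ℕ} (hn : 1 ≤ n) (H : SimpleGraph (Fin n)) (F : SimpleGraph W) {r : ℝ}
    (hr0 : 0 < r) (hr1 : r ≤ 1) (X T : Finset W) (hXT : X ⊆ T) (hR : Rigid n r F X T)
    (ψ : W → Fin n) (G : Finset (W → Fin n)) (hG : G ⊆ Ext F H X T ψ) :
    (n : ℝ) ^ (ls2x_Vu F X T ψ G).card * r ^ (ls2x_Eu F X T G).card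
      ≤ (n : ℝ) ^ (att F X T).card := by
  classical
  have hn1 : (1 : ℝ) ≤ n := by exact_mod_cast hn
  revert hG
  refine Finset.induction_on G ?_ ?_
  · intro _
    have hE0 : ls2x_Eu F X T (∅ : Finset (W → Fin n)) = ∅ := by
      ext d
      rw [ls2x_mem_Eu]
      simp
    have hV0 : (ls2x_Vu F X T ψ (∅ : Finset (W → Fin n))).card ≤ (att F X T).card := by
      have hsub : ls2x_Vu F X T ψ (∅ : Finset (W → Fin n)) ⊆ (att F X T).image ψ := by
        intro v hv
        rw [ls2x_mem_Vu] at hv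
        rcases hv with hv | ⟨φ, hφ, -⟩
        · exact Finset.mem_image.mpr hv
        · exact absurd hφ (Finset.notMem_empty φ)
      exact (Finset.card_le_card hsub).trans Finset.card_image_le
    rw [hE0, Finset.card_empty, pow_zero, mul_one]
    exact pow_le_pow_right₀ hn1 hV0
  · intro φ G _ ih hG
    have hφ : φ ∈ Ext F H X T ψ := hG (Finset.mem_insert_self _ _)
    have hG' : G ⊆ Ext F H X T ψ := (Finset.subset_insert _ _).trans hG
    exact (ls2x_step hn H F hr0 hr1 X T hXT hR ψ G hG' φ hφ).trans (ih hG')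

theorem union_bound {n : ℕ} (hn : 2 ≤ n) (H : SimpleGraph (Fin n)) (F : SimpleGraph W) {q : ℝ}
    (hq0 : 0 < q) (hq1 : 2 * q ≤ 1) (hW : WeakHyp n H q) (X T : Finset W) (hXT : X ⊆ T)
    (hR : Rigid n (2 * q) F X T) (ψ : W → Fin n) :
    2 ^ (unionEdges F H X T ψ).card ≤ n ^ (att F X T).card := by
  classical
  have hn1 : 1 ≤ n := by omega
  have hn1' : (1 : ℝ) ≤ n := by exact_mod_cast hn1
  have hinv := ls2x_inv hn1 H F (r := 2 * q) (by linarith) hq1 X T hXT hR ψ
    (Ext F H X T ψ) (Finset.Subset.refl _)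
  have hDE : unionEdges F H X T ψ = ls2x_Eu F X T (Ext F H X T ψ) := by
    ext d
    rw [ls2x_mem_Eu]
    simp only [unionEdges, Finset.mem_biUnion, Finset.mem_image]
  have hDH : ∀ e ∈ unionEdges F H X T ψ, e ∈ H.edgeSet := by
    intro d hd
    rw [hDE, ls2x_mem_Eu] at hd
    obtain ⟨φ, hφ, e, he, rfl⟩ := hd
    rw [ls2x_mem_Ext] at hφ
    induction e using Sym2.ind with
    | _ x y =>
      rw [ls2x_mem_extEdges] at he
      rw [Sym2.map_mk, SimpleGraph.mem_edgeSet]
      exact hφ.2.2 x y he.1 he.2.1 he.2.2.1 he.2.2.2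
  have hvs : Vale.Agent.KK.RG.vset (unionEdges F H X T ψ)
      ⊆ ls2x_Vu F X T ψ (Ext F H X T ψ) := by
    intro v hv
    simp only [Vale.Agent.KK.RG.vset, Finset.mem_filter, Finset.mem_univ, true_and] at hv
    obtain ⟨e, he, hve⟩ := hv
    rw [hDE] at he
    exact ls2x_endpoint F H X T ψ _ (Finset.Subset.refl _) he hve
  have h1 := hW (unionEdges F H X T ψ) hDH
  have h2 : (n : ℝ) ^ (Vale.Agent.KK.RG.vset (unionEdges F H X T ψ)).card
      ≤ (n : ℝ) ^ (ls2x_Vu F X T ψ (Ext F H X T ψ)).card :=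
    pow_le_pow_right₀ hn1' (Finset.card_le_card hvs)
  have hqpow : (0 : ℝ) ≤ q ^ (unionEdges F H X T ψ).card := by positivity
  have h4 : 1 ≤ (n : ℝ) ^ (ls2x_Vu F X T ψ (Ext F H X T ψ)).card
      * q ^ (unionEdges F H X T ψ).card :=
    h1.trans (mul_le_mul_of_nonneg_right h2 hqpow)
  rw [← hDE] at hinv
  have h3 : (2 : ℝ) ^ (unionEdges F H X T ψ).card
      * ((n : ℝ) ^ (ls2x_Vu F X T ψ (Ext F H X T ψ)).card * q ^ (unionEdges F H X T ψ).card)
      ≤ (n : ℝ) ^ (att F X T).card := by
    have hEq : (n : ℝ) ^ (ls2x_Vu F X T ψ (Ext F H X T ψ)).card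
          * (2 * q) ^ (unionEdges F H X T ψ).card
        = (2 : ℝ) ^ (unionEdges F H X T ψ).card
          * ((n : ℝ) ^ (ls2x_Vu F X T ψ (Ext F H X T ψ)).card
            * q ^ (unionEdges F H X T ψ).card) := by
      rw [mul_pow]
      ring
    rw [← hEq]
    exact hinv
  have h2pos : (0 : ℝ) < (2 : ℝ) ^ (unionEdges F H X T ψ).card := by positivity
  have h5 : (2 : ℝ) ^ (unionEdges F H X T ψ).card ≤ (n : ℝ) ^ (att F X T).card := by
    calc (2 : ℝ) ^ (unionEdges F H X T ψ).card
        = (2 : ℝ) ^ (unionEdges F H X T ψ).card * 1 := (mul_one _).symm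
      _ ≤ (2 : ℝ) ^ (unionEdges F H X T ψ).card
          * ((n : ℝ) ^ (ls2x_Vu F X T ψ (Ext F H X T ψ)).card
            * q ^ (unionEdges F H X T ψ).card) :=
          mul_le_mul_of_nonneg_left h4 h2pos.le
      _ ≤ (n : ℝ) ^ (att F X T).card := h3
  exact_mod_cast h5

end Vale.Agent.Lib.P064.LS
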