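import Vale.Agent.KK.LS.Defs
import Vale.Agent.Lib.P064.ls.Basic
import Vale.Agent.Lib.P064.ls.Union

/-!
# Rigid extension problems have at most `(log2 n) ^ m` solutions

If every extension problem between `X` and `T` has expected count below one at density `2 q`
and the host satisfies the weak expectation hypothesis at density `q`, then a map on `X` has at
most `(Nat.clog 2 n) ^ |T \ X|` extensions to `T`. The union of all extensions has at most
`log2 n` edges per attachment vertex, so some attachment vertex sees at most `log2 n` images of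
one of its new neighbours; fixing that image reduces the number of new vertices by one.
-/

namespace Vale.Agent.Lib.P064.LS

open Finset SimpleGraph Vale.Agent.KK Vale.Agent.KK.LS

variable {V W : Type*} [Fintype V] [Fintype W] [DecidableEq W]

/-- Membership in the union of the images of the extension edges. -/
theorem ls3_mem_unionEdges (F : SimpleGraph W) (H : SimpleGraph V) (X T : Finset W)
    (ψ : W → V) (e : Sym2 V) :
    e ∈ unionEdges F H X T ψ ↔
      ∃ φ ∈ Ext F H X T ψ, ∃ e' ∈ extEdges F X T, Sym2.map φ e' = e := by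
  classical
  simp only [unionEdges, Finset.mem_biUnion, Finset.mem_image]

omit [Fintype W] in
/-- Membership in the attachment set. -/
theorem ls3_mem_att (F : SimpleGraph W) (X T : Finset W) (y : W) :
    y ∈ att F X T ↔ y ∈ X ∧ ∃ z ∈ T \ X, F.Adj y z := by
  classical
  simp only [att, Finset.mem_filter]

/-- The other endpoint of a union edge at a root vertex is not a root value. -/
theorem ls3_target (F : SimpleGraph W) (H : SimpleGraph V) (X T : Finset W) (hXT : X ⊆ T)
    (ψ : W → V) (y : W) (hy : y ∈ X) (v : V)
    (hv : s(ψ y, v) ∈ unionEdges F H X T ψ) : ∀ y' ∈ X, v ≠ ψ y' := by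
  classical
  rw [ls3_mem_unionEdges] at hv
  obtain ⟨φ, hφ, e, he, heq⟩ := hv
  rw [mem_Ext] at hφ
  obtain ⟨hoff, hinj, -⟩ := hφ
  have hφX : ∀ w ∈ X, φ w = ψ w := by
    intro w hw
    apply hoff w
    rw [Finset.mem_sdiff]
    exact fun hcon => hcon.2 hw
  induction e using Sym2.ind with
  | _ x x' =>
    rw [mem_extEdges] at he
    obtain ⟨-, hxT, hx'T, hnot⟩ := he
    rw [Sym2.map_mk, Sym2.eq_iff] at heq
    intro y' hy' hvy'
    rcases heq with ⟨h1, h2⟩ | ⟨h1, h2⟩
    · have hxy : x = y := hinj hxT (hXT hy) (h1.trans (hφX y hy).symm)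
      have hx'X : x' ∉ X := by
        rcases hnot with hc | hc
        · exact absurd (hxy ▸ hy) hc
        · exact hc
      have hx'y' : x' = y' := hinj hx'T (hXT hy') (h2.trans (hvy'.trans (hφX y' hy').symm))
      exact hx'X (hx'y' ▸ hy')
    · have hxy : x' = y := hinj hx'T (hXT hy) (h2.trans (hφX y hy).symm)
      have hxX : x ∉ X := by
        rcases hnot with hc | hc
        · exact hc
        · exact absurd (hxy ▸ hy) hc
      have hxy' : x = y' := hinj hxT (hXT hy') (h1.trans (hvy'.trans (hφX y' hy').symm))
      exact hxX (hxy' ▸ hy')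

theorem rigid_count {n : ℕ} (hn : 2 ≤ n) (H : SimpleGraph (Fin n)) (F : SimpleGraph W) {q : ℝ}
    (hq0 : 0 < q) (hq1 : 2 * q ≤ 1) (hW : WeakHyp n H q) (X T : Finset W) (hXT : X ⊆ T)
    (hR : Rigid n (2 * q) F X T) (ψ : W → Fin n) :
    (Ext F H X T ψ).card ≤ (Nat.clog 2 n) ^ (T \ X).card := by
  classical
  have key : ∀ k : ℕ, ∀ (X : Finset W) (ψ : W → Fin n), X ⊆ T → Rigid n (2 * q) F X T →
      (T \ X).card = k → (Ext F H X T ψ).card ≤ (Nat.clog 2 n) ^ k := by
    intro k
    induction k with
    | zero =>
      intro X ψ hXT _ hk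
      have hTX : T ⊆ X := Finset.sdiff_eq_empty_iff_subset.1 (Finset.card_eq_zero.1 hk)
      have hEq : X = T := Finset.Subset.antisymm hXT hTX
      rw [hEq, pow_zero]
      exact Ext_self_card F H T ψ
    | succ k ih =>
      intro X ψ hXT hR hk
      by_cases hemp : Ext F H X T ψ = ∅
      · rw [hemp, Finset.card_empty]
        exact Nat.zero_le _
      obtain ⟨φ0, hφ0⟩ := Finset.nonempty_iff_ne_empty.2 hemp
      have hφ0' := (mem_Ext F H X T ψ φ0).1 hφ0
      have hφ0X : ∀ w ∈ X, φ0 w = ψ w := by
        intro w hw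
        apply hφ0'.1 w
        rw [Finset.mem_sdiff]
        exact fun hcon => hcon.2 hw
      have hψinj : ∀ a ∈ X, ∀ b ∈ X, ψ a = ψ b → a = b := by
        intro a ha b hb hab
        exact hφ0'.2.1 (hXT ha) (hXT hb) (by rw [hφ0X a ha, hφ0X b hb, hab])
      have hub := union_bound hn H F hq0 hq1 hW X T hXT hR ψ
      have hnB : n ≤ 2 ^ Nat.clog 2 n := Nat.le_pow_clog (by norm_num) n
      have hDA : (unionEdges F H X T ψ).card ≤ Nat.clog 2 n * (att F X T).card := by
        have h2 : 2 ^ (unionEdges F H X T ψ).card ≤ 2 ^ (Nat.clog 2 n * (att F X T).card) := by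
          calc 2 ^ (unionEdges F H X T ψ).card ≤ n ^ (att F X T).card := hub
            _ ≤ (2 ^ Nat.clog 2 n) ^ (att F X T).card := Nat.pow_le_pow_left hnB _
            _ = 2 ^ (Nat.clog 2 n * (att F X T).card) := by rw [pow_mul]
        exact (Nat.pow_le_pow_iff_right (by norm_num)).1 h2
      have hXT' : X ⊂ T := by
        refine ⟨hXT, fun hTX => ?_⟩
        have h0 : T \ X = ∅ := Finset.sdiff_eq_empty_iff_subset.2 hTX
        rw [h0, Finset.card_empty] at hk
        omega
      have hE : (extEdges F X T).Nonempty := by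
        by_contra hE
        rw [Finset.not_nonempty_iff_eq_empty] at hE
        have hw := hR X (Finset.Subset.refl X) hXT'
        unfold wt at hw
        rw [hE, Finset.card_empty, pow_zero, mul_one] at hw
        have hn1 : (1 : ℝ) ≤ (n : ℝ) := by
          have : 1 ≤ n := by omega
          exact_mod_cast this
        have : (1 : ℝ) ≤ (n : ℝ) ^ (T \ X).card := one_le_pow₀ hn1
        linarith
      obtain ⟨e0, he0⟩ := hE
      have hDne : (unionEdges F H X T ψ).Nonempty :=
        ⟨Sym2.map φ0 e0, (ls3_mem_unionEdges F H X T ψ _).2 ⟨φ0, hφ0, e0, he0, rfl⟩⟩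
      have hApos : (att F X T).Nonempty := by
        by_contra hA
        rw [Finset.not_nonempty_iff_eq_empty] at hA
        rw [hA, Finset.card_empty, mul_zero] at hDA
        have := Finset.card_pos.2 hDne
        omega
      -- the neighbourhoods of the root values in the union
      have hsum : ∑ y ∈ att F X T,
          ((univ : Finset (Fin n)).filter (fun v => s(ψ y, v) ∈ unionEdges F H X T ψ)).card
            ≤ (unionEdges F H X T ψ).card := by
        rw [← Finset.card_sigma]
        apply Finset.card_le_card_of_injOn (fun p : (_ : W) × Fin n => s(ψ p.1, p.2))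
        · intro p hp
          rw [Finset.mem_coe, Finset.mem_sigma] at hp
          exact (Finset.mem_filter.1 hp.2).2
        · intro p hp p' hp' heq
          rw [Finset.mem_coe, Finset.mem_sigma] at hp hp'
          have hpD := (Finset.mem_filter.1 hp.2).2
          have hpX : p.1 ∈ X := ((ls3_mem_att F X T p.1).1 hp.1).1
          have hp'X : p'.1 ∈ X := ((ls3_mem_att F X T p'.1).1 hp'.1).1
          have heq' : s(ψ p.1, p.2) = s(ψ p'.1, p'.2) := heq
          rw [Sym2.eq_iff] at heq'
          rcases heq' with ⟨h1, h2⟩ | ⟨h1, h2⟩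
          · exact Sigma.ext (hψinj _ hpX _ hp'X h1) (heq_of_eq h2)
          · exact absurd h2 (ls3_target F H X T hXT ψ p.1 hpX p.2 hpD p'.1 hp'X)
      obtain ⟨y, hyA, hyB⟩ : ∃ y ∈ att F X T,
          ((univ : Finset (Fin n)).filter (fun v => s(ψ y, v) ∈ unionEdges F H X T ψ)).card
            ≤ Nat.clog 2 n := by
        apply Finset.exists_le_of_sum_le hApos
        rw [Finset.sum_const, smul_eq_mul]
        calc _ ≤ (unionEdges F H X T ψ).card := hsum
          _ ≤ Nat.clog 2 n * (att F X T).card := hDA
          _ = (att F X T).card * Nat.clog 2 n := mul_comm _ _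
      obtain ⟨hyX, z, hz, hyz⟩ := (ls3_mem_att F X T y).1 hyA
      have hzT : z ∈ T := (Finset.mem_sdiff.1 hz).1
      have hzX : z ∉ X := (Finset.mem_sdiff.1 hz).2
      have hcover : Ext F H X T ψ ⊆
          ((univ : Finset (Fin n)).filter (fun v => s(ψ y, v) ∈ unionEdges F H X T ψ)).biUnion
            (fun v => Ext F H (insert z X) T (Function.update ψ z v)) := by
        intro φ hφ
        rw [Finset.mem_biUnion]
        refine ⟨φ z, ?_, Ext_update F H hφ hz⟩
        rw [Finset.mem_filter]
        refine ⟨Finset.mem_univ _, ?_⟩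
        rw [ls3_mem_unionEdges]
        refine ⟨φ, hφ, s(y, z), ?_, ?_⟩
        · rw [mem_extEdges]
          exact ⟨hyz, hXT hyX, hzT, Or.inr hzX⟩
        · rw [Sym2.map_mk]
          have hφy : φ y = ψ y := by
            apply ((mem_Ext F H X T ψ φ).1 hφ).1 y
            rw [Finset.mem_sdiff]
            exact fun hcon => hcon.2 hyX
          rw [hφy]
      have hins : insert z X ⊆ T := Finset.insert_subset hzT hXT
      have hrig : Rigid n (2 * q) F (insert z X) T :=
        fun X' hX' hX'T => hR X' ((Finset.subset_insert z X).trans hX') hX'T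
      have hcard : (T \ insert z X).card = k := by
        have h0 : T \ insert z X = (T \ X).erase z := by
          ext w
          simp only [Finset.mem_sdiff, Finset.mem_insert, Finset.mem_erase]
          tauto
        rw [h0, Finset.card_erase_of_mem hz, hk]
        rfl
      calc (Ext F H X T ψ).card ≤ _ := Finset.card_le_card hcover
        _ ≤ ((univ : Finset (Fin n)).filter
              (fun v => s(ψ y, v) ∈ unionEdges F H X T ψ)).card * (Nat.clog 2 n) ^ k :=
            Finset.card_biUnion_le_card_mul _ _ _
              (fun v _ => ih (insert z X) (Function.update ψ z v) hins hrig hcard)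
        _ ≤ Nat.clog 2 n * (Nat.clog 2 n) ^ k := Nat.mul_le_mul_right _ hyB
        _ = (Nat.clog 2 n) ^ (k + 1) := by ring
  exact key _ X ψ hXT hR rfl

end Vale.Agent.Lib.P064.LS
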