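import Vale.Agent.KK.LS.Defs

/-!
# Copies of a sunflower graph

A graph on `[n]` whose edge set is the union of `t` isomorphic petals over a common root set `R`
has at most `n ^ |R| * C(n ^ |Z|, t)` copies in the complete graph: a copy is determined by the
images of the roots and by the unordered family of the images of the petals.
-/

namespace Vale.Agent.Lib.P064.LS

open Finset SimpleGraph Vale.Agent.KK Vale.Agent.KK.LS

variable {V W : Type*} [Fintype V] [Fintype W] [DecidableEq W]

/-- The adjacency of a copy of the sunflower graph, read off from the chosen isomorphism. -/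
theorem ls4_adj_iff {n : ℕ} {Z : Type*} (R : Finset (Fin n)) (t : ℕ)
    (P : Fin t → Z → Fin n)
    (hPR : ∀ i z, P i z ∉ R)
    (pat : Fin n → Z → Prop) (pat' : Z → Z → Prop)
    (U : SimpleGraph (Fin n))
    (hU : ∀ a b, U.Adj a b ↔ a ≠ b ∧
      ((∃ i z, a ∈ R ∧ b = P i z ∧ pat a z) ∨ (∃ i z, b ∈ R ∧ a = P i z ∧ pat b z) ∨
        (∃ i z z', a = P i z ∧ b = P i z' ∧ (pat' z z' ∨ pat' z' z))))
    {S : (⊤ : SimpleGraph (Fin n)).Subgraph} (f : U ≃g S.coe) (a b : Fin n) :
    S.Adj a b ↔ a ≠ b ∧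
      ((∃ r i z, r ∈ R ∧ a = ((f r : S.verts) : Fin n) ∧
          b = ((f (P i z) : S.verts) : Fin n) ∧ pat r z) ∨
       (∃ r i z, r ∈ R ∧ b = ((f r : S.verts) : Fin n) ∧
          a = ((f (P i z) : S.verts) : Fin n) ∧ pat r z) ∨
       (∃ i z z', a = ((f (P i z) : S.verts) : Fin n) ∧
          b = ((f (P i z') : S.verts) : Fin n) ∧ (pat' z z' ∨ pat' z' z))) := by
  constructor
  · intro hab
    have ha : a ∈ S.verts := S.edge_vert hab
    have hb : b ∈ S.verts := S.edge_vert hab.symm
    have h1 : S.coe.Adj ⟨a, ha⟩ ⟨b, hb⟩ := hab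
    have h2 : U.Adj (f.symm ⟨a, ha⟩) (f.symm ⟨b, hb⟩) := f.symm.map_rel_iff.2 h1
    have hfa : ((f (f.symm ⟨a, ha⟩) : S.verts) : Fin n) = a := by simp
    have hfb : ((f (f.symm ⟨b, hb⟩) : S.verts) : Fin n) = b := by simp
    rw [hU] at h2
    obtain ⟨-, h3⟩ := h2
    refine ⟨(S.adj_sub hab).ne, ?_⟩
    rcases h3 with ⟨i, z, hR, hb', hp⟩ | ⟨i, z, hR, ha', hp⟩ | ⟨i, z, z', ha', hb', hp⟩
    · left
      refine ⟨f.symm ⟨a, ha⟩, i, z, hR, hfa.symm, ?_, hp⟩
      rw [← hb']
      exact hfb.symm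
    · right
      left
      refine ⟨f.symm ⟨b, hb⟩, i, z, hR, hfb.symm, ?_, hp⟩
      rw [← ha']
      exact hfa.symm
    · right
      right
      refine ⟨i, z, z', ?_, ?_, hp⟩
      · rw [← ha']
        exact hfa.symm
      · rw [← hb']
        exact hfb.symm
  · rintro ⟨hne, h⟩
    rcases h with ⟨r, i, z, hr, ha, hb, hp⟩ | ⟨r, i, z, hr, hb, ha, hp⟩ | ⟨i, z, z', ha, hb, hp⟩
    · have h1 : U.Adj r (P i z) := by
        rw [hU]
        refine ⟨?_, Or.inl ⟨i, z, hr, rfl, hp⟩⟩
        intro h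
        exact hPR i z (h ▸ hr)
      have h2 : S.coe.Adj (f r) (f (P i z)) := f.map_rel_iff.2 h1
      rw [ha, hb]
      exact h2
    · have h1 : U.Adj (P i z) r := by
        rw [hU]
        refine ⟨?_, Or.inr (Or.inl ⟨i, z, hr, rfl, hp⟩)⟩
        intro h
        exact hPR i z (h ▸ hr)
      have h2 : S.coe.Adj (f (P i z)) (f r) := f.map_rel_iff.2 h1
      rw [ha, hb]
      exact h2
    · have h1 : U.Adj (P i z) (P i z') := by
        rw [hU]
        refine ⟨?_, Or.inr (Or.inr ⟨i, z, z', rfl, rfl, hp⟩)⟩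
        intro h
        apply hne
        rw [ha, hb, h]
      have h2 : S.coe.Adj (f (P i z)) (f (P i z')) := f.map_rel_iff.2 h1
      rw [ha, hb]
      exact h2

/-- Two copies whose isomorphisms agree on the roots, and such that every petal image of the
first is a petal image of the second: every edge of the first is an edge of the second. -/
theorem ls4_transfer {n : ℕ} {Z : Type*} (R : Finset (Fin n)) (t : ℕ)
    (P : Fin t → Z → Fin n)
    (hPR : ∀ i z, P i z ∉ R)
    (pat : Fin n → Z → Prop) (pat' : Z → Z → Prop)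
    (U : SimpleGraph (Fin n))
    (hU : ∀ a b, U.Adj a b ↔ a ≠ b ∧
      ((∃ i z, a ∈ R ∧ b = P i z ∧ pat a z) ∨ (∃ i z, b ∈ R ∧ a = P i z ∧ pat b z) ∨
        (∃ i z z', a = P i z ∧ b = P i z' ∧ (pat' z z' ∨ pat' z' z))))
    {S S' : (⊤ : SimpleGraph (Fin n)).Subgraph} (f : U ≃g S.coe) (f' : U ≃g S'.coe)
    (h1 : ∀ r ∈ R, ((f r : S.verts) : Fin n) = ((f' r : S'.verts) : Fin n))
    (h2 : ∀ i, ∃ j, ∀ z, ((f (P i z) : S.verts) : Fin n) = ((f' (P j z) : S'.verts) : Fin n))
    {a b : Fin n} (hab : S.Adj a b) : S'.Adj a b := by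
  rw [ls4_adj_iff R t P hPR pat pat' U hU f] at hab
  rw [ls4_adj_iff R t P hPR pat pat' U hU f']
  obtain ⟨hne, h⟩ := hab
  refine ⟨hne, ?_⟩
  rcases h with ⟨r, i, z, hr, ha, hb, hp⟩ | ⟨r, i, z, hr, hb, ha, hp⟩ | ⟨i, z, z', ha, hb, hp⟩
  · obtain ⟨j, hj⟩ := h2 i
    exact Or.inl ⟨r, j, z, hr, by rw [ha, h1 r hr], by rw [hb, hj z], hp⟩
  · obtain ⟨j, hj⟩ := h2 i
    exact Or.inr (Or.inl ⟨r, j, z, hr, by rw [hb, h1 r hr], by rw [ha, hj z], hp⟩)
  · obtain ⟨j, hj⟩ := h2 i
    exact Or.inr (Or.inr ⟨j, z, z', by rw [ha, hj z], by rw [hb, hj z'], hp⟩)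

/-- A graph `U` on `[n]` whose edge set is the union of `t` isomorphic petals `D i` over a common
root set `R`, the petals being the images of one pattern under maps `P i : Z → Fin n` with
pairwise disjoint ranges: it has at most `n ^ |R| * C(n ^ |Z|, t)` copies in the complete
graph. Here `pat r z` says that the root vertex `r` is joined to the petal vertex `z`, and
`pat' z z'` that the petal vertices `z z'` are joined. -/
theorem sunflower_copyCount_le {n : ℕ} {Z : Type*} [Fintype Z] [Nonempty Z] (R : Finset (Fin n)) (t : ℕ)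
    (P : Fin t → Z → Fin n) (hPinj : ∀ i, Function.Injective (P i))
    (hPdisj : ∀ i j, i ≠ j → ∀ z z', P i z ≠ P j z')
    (hPR : ∀ i z, P i z ∉ R)
    (pat : Fin n → Z → Prop) (pat' : Z → Z → Prop)
    (U : SimpleGraph (Fin n))
    (hU : ∀ a b, U.Adj a b ↔ a ≠ b ∧
      ((∃ i z, a ∈ R ∧ b = P i z ∧ pat a z) ∨ (∃ i z, b ∈ R ∧ a = P i z ∧ pat b z) ∨
        (∃ i z z', a = P i z ∧ b = P i z' ∧ (pat' z z' ∨ pat' z' z)))) :
    (⊤ : SimpleGraph (Fin n)).copyCount U ≤ n ^ R.card * (n ^ Fintype.card Z).choose t := by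
  classical
  rw [copyCount_eq_natCard]
  have hinj : ∀ (S : (⊤ : SimpleGraph (Fin n)).Subgraph) (f : U ≃g S.coe),
      Function.Injective (fun i : Fin t => fun z : Z => ((f (P i z) : S.verts) : Fin n)) := by
    intro S f i j h
    by_contra hij
    obtain ⟨z0⟩ := ‹Nonempty Z›
    have h1 := congrFun h z0
    have h2 : P i z0 = P j z0 := f.injective (Subtype.ext h1)
    exact hPdisj i j hij z0 z0 h2
  let Φ : {S : (⊤ : SimpleGraph (Fin n)).Subgraph // Nonempty (U ≃g S.coe)} →
      ({x : Fin n // x ∈ R} → Fin n) × {A : Finset (Z → Fin n) // A.card = t} :=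
    fun S => (fun r => ((Classical.choice S.2 r.1 : S.1.verts) : Fin n),
      ⟨Finset.univ.image (fun i : Fin t => fun z : Z =>
          ((Classical.choice S.2 (P i z) : S.1.verts) : Fin n)), by
        rw [Finset.card_image_of_injective _ (hinj S.1 (Classical.choice S.2))]
        simp⟩)
  have hΦ : Function.Injective Φ := by
    rintro ⟨S, hS⟩ ⟨S', hS'⟩ h
    have h1 : ∀ r ∈ R, ((Classical.choice hS r : S.verts) : Fin n) =
        ((Classical.choice hS' r : S'.verts) : Fin n) := by
      intro r hr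
      exact congrFun (congrArg Prod.fst h) ⟨r, hr⟩
    have h2 : Finset.univ.image (fun i : Fin t => fun z : Z =>
          ((Classical.choice hS (P i z) : S.verts) : Fin n)) =
        Finset.univ.image (fun i : Fin t => fun z : Z =>
          ((Classical.choice hS' (P i z) : S'.verts) : Fin n)) :=
      congrArg (fun x => x.2.1) h
    have h3 : ∀ i, ∃ j, ∀ z, ((Classical.choice hS (P i z) : S.verts) : Fin n) =
        ((Classical.choice hS' (P j z) : S'.verts) : Fin n) := by
      intro i
      have hmem : (fun z : Z => ((Classical.choice hS (P i z) : S.verts) : Fin n)) ∈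
          Finset.univ.image (fun i : Fin t => fun z : Z =>
            ((Classical.choice hS' (P i z) : S'.verts) : Fin n)) := by
        rw [← h2]
        exact Finset.mem_image_of_mem _ (Finset.mem_univ i)
      obtain ⟨j, -, hj⟩ := Finset.mem_image.1 hmem
      exact ⟨j, fun z => (congrFun hj z).symm⟩
    have h4 : ∀ i, ∃ j, ∀ z, ((Classical.choice hS' (P i z) : S'.verts) : Fin n) =
        ((Classical.choice hS (P j z) : S.verts) : Fin n) := by
      intro i
      have hmem : (fun z : Z => ((Classical.choice hS' (P i z) : S'.verts) : Fin n)) ∈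
          Finset.univ.image (fun i : Fin t => fun z : Z =>
            ((Classical.choice hS (P i z) : S.verts) : Fin n)) := by
        rw [h2]
        exact Finset.mem_image_of_mem _ (Finset.mem_univ i)
      obtain ⟨j, -, hj⟩ := Finset.mem_image.1 hmem
      exact ⟨j, fun z => (congrFun hj z).symm⟩
    apply Subtype.ext
    apply Subgraph.ext
    · rw [verts_eq_univ_of_iso (Classical.choice hS), verts_eq_univ_of_iso (Classical.choice hS')]
    · ext a b
      exact ⟨ls4_transfer R t P hPR pat pat' U hU (Classical.choice hS) (Classical.choice hS')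
          h1 h3,
        ls4_transfer R t P hPR pat pat' U hU (Classical.choice hS') (Classical.choice hS)
          (fun r hr => (h1 r hr).symm) h4⟩
  have h3 := Nat.card_le_card_of_injective Φ hΦ
  have h4 : Nat.card (({x : Fin n // x ∈ R} → Fin n) ×
      {A : Finset (Z → Fin n) // A.card = t}) = n ^ R.card * (n ^ Fintype.card Z).choose t := by
    rw [Nat.card_prod, Nat.card_eq_fintype_card, Nat.card_eq_fintype_card, Fintype.card_fun,
      Fintype.card_fin, Fintype.card_coe, Fintype.card_finset_len, Fintype.card_fun,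
      Fintype.card_fin]
  rw [h4] at h3
  exact h3

end Vale.Agent.Lib.P064.LS
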