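import Vale.Agent.KK.LS.Defs
import Vale.Agent.Lib.P064.ls.Basic
import Vale.Agent.Lib.P064.ls.SunflowerCopies

/-!
# The sunflower step

A family `M` of extensions from `S` to `T` whose new parts are pairwise disjoint has at most
`t` members with `t ! ≤ n ^ e * (n ^ m * q ^ e) ^ t`: the union of the images of the extension
edges is a subgraph of the host, so the expectation hypothesis applies to it, and it has few
copies in the complete graph since it is a sunflower over the attachment vertices.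
-/

namespace Vale.Agent.Lib.P064.LS

open Finset SimpleGraph Vale.Agent.KK Vale.Agent.KK.LS

variable {V W : Type*} [Fintype V] [Fintype W] [DecidableEq W]

omit [Fintype W] in
theorem ls5_mem_att {F : SimpleGraph W} {S T : Finset W} {y : W} :
    y ∈ att F S T ↔ y ∈ S ∧ ∃ z ∈ T \ S, F.Adj y z := by
  unfold att
  simp only [Finset.mem_filter]

/-- A new vertex of one member of a family with pairwise disjoint new parts is never sent to
the image, under another member, of a vertex of `T`. -/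
theorem ls5_ne {n : ℕ} {H : SimpleGraph (Fin n)} {F : SimpleGraph W} {S T : Finset W}
    {ψ : W → Fin n} {M : Finset (W → Fin n)} (hM : M ⊆ Ext F H S T ψ)
    (hdisj : ∀ φ ∈ M, ∀ φ' ∈ M, φ ≠ φ' → ∀ x ∈ T \ S, ∀ x' ∈ T \ S, φ x ≠ φ' x')
    {φ φ' : W → Fin n} (hφ : φ ∈ M) (hφ' : φ' ∈ M) (hne : φ ≠ φ') {x w : W} (hx : x ∈ T \ S)
    (hw : w ∈ T) : φ x ≠ φ' w := by
  by_cases hwS : w ∈ S
  · intro heq
    have h1 := (mem_Ext F H S T ψ φ).1 (hM hφ)
    have h2 := (mem_Ext F H S T ψ φ').1 (hM hφ')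
    have hw' : w ∉ T \ S := fun hh => (mem_sdiff.1 hh).2 hwS
    have e1 : φ w = ψ w := h1.1 w hw'
    have e2 : φ' w = ψ w := h2.1 w hw'
    have e3 : φ x = φ w := by rw [heq, e2, e1]
    have e4 : x = w := h1.2.1 (mem_coe.2 (mem_sdiff.1 hx).1) (mem_coe.2 hw) e3
    exact (mem_sdiff.1 hx).2 (e4 ▸ hwS)
  · exact hdisj φ hφ φ' hφ' hne x hx w (mem_sdiff.2 ⟨hw, hwS⟩)

/-- An extension is injective on the extension edges. -/
theorem ls5_injOn {n : ℕ} {H : SimpleGraph (Fin n)} {F : SimpleGraph W} {S T : Finset W}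
    {ψ φ : W → Fin n} (hφ : φ ∈ Ext F H S T ψ) :
    Set.InjOn (Sym2.map φ) (extEdges F S T : Set (Sym2 W)) := by
  have h1 := ((mem_Ext F H S T ψ φ).1 hφ).2.1
  intro e he e' he' heq
  induction e using Sym2.ind with
  | h x y =>
    induction e' using Sym2.ind with
    | h x' y' =>
      rw [mem_coe, mem_extEdges] at he he'
      rw [Sym2.map_mk, Sym2.map_mk, Sym2.eq_iff] at heq
      rcases heq with ⟨e1, e2⟩ | ⟨e1, e2⟩
      · rw [h1 (mem_coe.2 he.2.1) (mem_coe.2 he'.2.1) e1,
          h1 (mem_coe.2 he.2.2.1) (mem_coe.2 he'.2.2.1) e2]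
      · rw [h1 (mem_coe.2 he.2.1) (mem_coe.2 he'.2.2.1) e1,
          h1 (mem_coe.2 he.2.2.1) (mem_coe.2 he'.2.1) e2]
        exact Sym2.eq_swap

/-- The images of the extension edges under two different members of a family with pairwise
disjoint new parts are disjoint. -/
theorem ls5_disjoint {n : ℕ} {H : SimpleGraph (Fin n)} {F : SimpleGraph W} {S T : Finset W}
    {ψ : W → Fin n} {M : Finset (W → Fin n)} (hM : M ⊆ Ext F H S T ψ)
    (hdisj : ∀ φ ∈ M, ∀ φ' ∈ M, φ ≠ φ' → ∀ x ∈ T \ S, ∀ x' ∈ T \ S, φ x ≠ φ' x')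
    {φ φ' : W → Fin n} (hφ : φ ∈ M) (hφ' : φ' ∈ M) (hne : φ ≠ φ') :
    Disjoint ((extEdges F S T).image (Sym2.map φ)) ((extEdges F S T).image (Sym2.map φ')) := by
  rw [Finset.disjoint_left]
  intro d hd hd'
  obtain ⟨e, he, rfl⟩ := mem_image.1 hd
  obtain ⟨e', he', heq⟩ := mem_image.1 hd'
  induction e using Sym2.ind with
  | h x y =>
    induction e' using Sym2.ind with
    | h x' y' =>
      rw [mem_extEdges] at he he'
      obtain ⟨-, hxT, hyT, hxy⟩ := he
      obtain ⟨-, hxT', hyT', -⟩ := he'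
      rw [Sym2.map_mk, Sym2.map_mk, Sym2.eq_iff] at heq
      rcases hxy with hx | hy
      · have hxTS : x ∈ T \ S := mem_sdiff.2 ⟨hxT, hx⟩
        rcases heq with ⟨e1, -⟩ | ⟨-, e2⟩
        · exact ls5_ne hM hdisj hφ hφ' hne hxTS hxT' e1.symm
        · exact ls5_ne hM hdisj hφ hφ' hne hxTS hyT' e2.symm
      · have hyTS : y ∈ T \ S := mem_sdiff.2 ⟨hyT, hy⟩
        rcases heq with ⟨-, e2⟩ | ⟨e1, -⟩
        · exact ls5_ne hM hdisj hφ hφ' hne hyTS hyT' e2.symm
        · exact ls5_ne hM hdisj hφ hφ' hne hyTS hxT' e1.symm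

/-- The attachment vertices are at most as many as the extension edges. -/
theorem ls5_att_card_le (F : SimpleGraph W) {S T : Finset W} (hST : S ⊆ T) :
    (att F S T).card ≤ (extEdges F S T).card := by
  have hch : ∀ y ∈ att F S T, ∃ z, z ∈ T \ S ∧ F.Adj y z := fun y hy => by
    obtain ⟨-, z, hz, hadj⟩ := ls5_mem_att.1 hy
    exact ⟨z, hz, hadj⟩
  choose! g hg using hch
  apply Finset.card_le_card_of_injOn (fun y => s(y, g y))
  · intro y hy
    have hyS := (ls5_mem_att.1 (mem_coe.1 hy)).1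
    have hgy := hg y (mem_coe.1 hy)
    rw [mem_coe, mem_extEdges]
    exact ⟨hgy.2, hST hyS, (mem_sdiff.1 hgy.1).1, Or.inr (mem_sdiff.1 hgy.1).2⟩
  · intro y hy y' hy' heq
    have hyS := (ls5_mem_att.1 (mem_coe.1 hy)).1
    rcases Sym2.eq_iff.1 heq with ⟨h1, -⟩ | ⟨h1, -⟩
    · exact h1
    · exact absurd (h1 ▸ hyS) (mem_sdiff.1 (hg y' (mem_coe.1 hy')).1).2

theorem sunflower_bound {n : ℕ} (hn : 2 ≤ n) (H : SimpleGraph (Fin n)) (F : SimpleGraph W)
    {q : ℝ} (hq0 : 0 ≤ q) (hq1 : q ≤ 1) (h : SubgraphsExpected n H q) (S T : Finset W) (hST : S ⊆ T)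
    (ψ : W → Fin n) (M : Finset (W → Fin n)) (hM : M ⊆ Ext F H S T ψ)
    (hdisj : ∀ φ ∈ M, ∀ φ' ∈ M, φ ≠ φ' → ∀ x ∈ T \ S, ∀ x' ∈ T \ S, φ x ≠ φ' x') :
    (M.card.factorial : ℝ) ≤ (n : ℝ) ^ (extEdges F S T).card * (wt n q F S T) ^ M.card := by
  classical
  by_cases hTS : T \ S = ∅
  · have hTeq : T = S :=
      Finset.Subset.antisymm (Finset.sdiff_eq_empty_iff_subset.1 hTS) hST
    subst hTeq
    have hc : M.card ≤ 1 := (Finset.card_le_card hM).trans (Ext_self_card F H T ψ)
    rw [extEdges_self, wt_self, Finset.card_empty, pow_zero, one_pow, one_mul]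
    have hfac : M.card.factorial = 1 := by
      interval_cases M.card <;> rfl
    rw [hfac]
    norm_num
  · obtain ⟨z0, hz0⟩ := Finset.nonempty_iff_ne_empty.2 hTS
    have hZne : Nonempty {z // z ∈ T \ S} := ⟨⟨z0, hz0⟩⟩
    have hcardZ : Fintype.card {z // z ∈ T \ S} = (T \ S).card := Fintype.card_coe (T \ S)
    obtain ⟨en, hen⟩ : ∃ en : Fin M.card → W → Fin n,
        en = fun i => ((M.equivFin).symm i).1 := ⟨_, rfl⟩
    have hen_mem : ∀ i, en i ∈ M := fun i => by
      rw [hen]
      exact ((M.equivFin).symm i).2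
    have hen_inj : ∀ i j, i ≠ j → en i ≠ en j := by
      intro i j hij heq
      apply hij
      rw [hen] at heq
      exact (M.equivFin).symm.injective (Subtype.ext heq)
    have hen_surj : ∀ φ ∈ M, ∃ i, en i = φ := by
      intro φ hφ
      refine ⟨M.equivFin ⟨φ, hφ⟩, ?_⟩
      rw [hen]
      show ((M.equivFin).symm (M.equivFin ⟨φ, hφ⟩)).1 = φ
      rw [Equiv.symm_apply_apply]
    obtain ⟨D, hDdef⟩ : ∃ D : Finset (Sym2 (Fin n)),
        D = M.biUnion (fun φ => (extEdges F S T).image (Sym2.map φ)) := ⟨_, rfl⟩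
    have hmemD : ∀ d, d ∈ D ↔ ∃ φ ∈ M, ∃ e ∈ extEdges F S T, Sym2.map φ e = d := by
      intro d
      rw [hDdef, mem_biUnion]
      constructor
      · rintro ⟨φ, hφ, hd⟩
        obtain ⟨e, he, rfl⟩ := mem_image.1 hd
        exact ⟨φ, hφ, e, he, rfl⟩
      · rintro ⟨φ, hφ, e, he, rfl⟩
        exact ⟨φ, hφ, mem_image_of_mem _ he⟩
    have hD : ∀ d ∈ D, d ∈ H.edgeSet := by
      intro d hd
      obtain ⟨φ, hφ, e0, he0, rfl⟩ := (hmemD d).1 hd
      have h3 := ((mem_Ext F H S T ψ φ).1 (hM hφ)).2.2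
      induction e0 using Sym2.ind with
      | h x y =>
        rw [mem_extEdges] at he0
        rw [Sym2.map_mk, SimpleGraph.mem_edgeSet]
        exact h3 x y he0.1 he0.2.1 he0.2.2.1 he0.2.2.2
    have hUH : SimpleGraph.fromEdgeSet (D : Set (Sym2 (Fin n))) ≤ H := by
      intro a b hab
      rw [SimpleGraph.fromEdgeSet_adj] at hab
      exact (SimpleGraph.mem_edgeSet H).1 (hD _ (Finset.mem_coe.1 hab.1))
    have hUe : (SimpleGraph.fromEdgeSet (D : Set (Sym2 (Fin n)))).edgeSet =
        (D : Set (Sym2 (Fin n))) := Vale.Agent.Lib.P064.RG.h23_edgeSet_fromEdgeSet D hD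
    have hcardD : D.card = M.card * (extEdges F S T).card := by
      rw [hDdef, Finset.card_biUnion]
      · rw [Finset.sum_const_nat (m := (extEdges F S T).card)]
        intro φ hφ
        exact Finset.card_image_of_injOn (ls5_injOn (hM hφ))
      · intro φ hφ φ' hφ' hne
        exact ls5_disjoint hM hdisj hφ hφ' hne
    have hPinj : ∀ i, Function.Injective (fun z : {z // z ∈ T \ S} => en i z.1) := by
      intro i z z' hzz
      have h1 := ((mem_Ext F H S T ψ (en i)).1 (hM (hen_mem i))).2.1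
      exact Subtype.ext (h1 (mem_coe.2 (mem_sdiff.1 z.2).1) (mem_coe.2 (mem_sdiff.1 z'.2).1) hzz)
    have hPdisj : ∀ i j, i ≠ j → ∀ z z' : {z // z ∈ T \ S}, en i z.1 ≠ en j z'.1 := by
      intro i j hij z z'
      exact hdisj (en i) (hen_mem i) (en j) (hen_mem j) (hen_inj i j hij) z.1 z.2 z'.1 z'.2
    have hPR : ∀ i (z : {z // z ∈ T \ S}), en i z.1 ∉ (att F S T).image ψ := by
      intro i z hmem
      obtain ⟨y, hy, hyz⟩ := mem_image.1 hmem
      have hyS : y ∈ S := (ls5_mem_att.1 hy).1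
      have h1 := (mem_Ext F H S T ψ (en i)).1 (hM (hen_mem i))
      have hy' : y ∉ T \ S := fun hh => (mem_sdiff.1 hh).2 hyS
      have e1 : en i y = ψ y := h1.1 y hy'
      have e3 : en i y = en i z.1 := by rw [e1, hyz]
      have e4 : y = z.1 := h1.2.1 (mem_coe.2 (hST hyS)) (mem_coe.2 (mem_sdiff.1 z.2).1) e3
      exact (mem_sdiff.1 z.2).2 (e4 ▸ hyS)
    have hU : ∀ a b, (SimpleGraph.fromEdgeSet (D : Set (Sym2 (Fin n)))).Adj a b ↔ a ≠ b ∧
        ((∃ (i : Fin M.card) (z : {z // z ∈ T \ S}), a ∈ (att F S T).image ψ ∧ b = en i z.1 ∧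
            ∃ y ∈ S, ψ y = a ∧ F.Adj y z.1) ∨
          (∃ (i : Fin M.card) (z : {z // z ∈ T \ S}), b ∈ (att F S T).image ψ ∧ a = en i z.1 ∧
            ∃ y ∈ S, ψ y = b ∧ F.Adj y z.1) ∨
          (∃ (i : Fin M.card) (z z' : {z // z ∈ T \ S}), a = en i z.1 ∧ b = en i z'.1 ∧
            (F.Adj z.1 z'.1 ∨ F.Adj z'.1 z.1))) := by
      intro a b
      rw [SimpleGraph.fromEdgeSet_adj]
      constructor
      · rintro ⟨hab, hne⟩
        refine ⟨hne, ?_⟩
        obtain ⟨φ, hφ, e0, he0, heq⟩ := (hmemD _).1 (Finset.mem_coe.1 hab)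
        obtain ⟨i, rfl⟩ := hen_surj φ hφ
        have h1 := (mem_Ext F H S T ψ (en i)).1 (hM hφ)
        induction e0 using Sym2.ind with
        | h x y =>
          rw [mem_extEdges] at he0
          obtain ⟨hadj, hxT, hyT, hxy⟩ := he0
          rw [Sym2.map_mk, Sym2.eq_iff] at heq
          by_cases hxS : x ∈ S
          · have hyS : y ∉ S := by
              rcases hxy with h' | h'
              · exact absurd hxS h'
              · exact h'
            have hyTS : y ∈ T \ S := mem_sdiff.2 ⟨hyT, hyS⟩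
            have ex : en i x = ψ x := h1.1 x (fun hh => (mem_sdiff.1 hh).2 hxS)
            have hxatt : x ∈ att F S T := ls5_mem_att.2 ⟨hxS, y, hyTS, hadj⟩
            have hR : ψ x ∈ (att F S T).image ψ := mem_image_of_mem ψ hxatt
            rcases heq with ⟨h1', h2'⟩ | ⟨h1', h2'⟩
            · left
              refine ⟨i, ⟨y, hyTS⟩, ?_, h2'.symm, x, hxS, ?_, hadj⟩
              · rw [← h1', ex]
                exact hR
              · rw [← h1', ex]
            · right
              left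
              refine ⟨i, ⟨y, hyTS⟩, ?_, h2'.symm, x, hxS, ?_, hadj⟩
              · rw [← h1', ex]
                exact hR
              · rw [← h1', ex]
          · have hxTS : x ∈ T \ S := mem_sdiff.2 ⟨hxT, hxS⟩
            by_cases hyS : y ∈ S
            · have ey : en i y = ψ y := h1.1 y (fun hh => (mem_sdiff.1 hh).2 hyS)
              have hyatt : y ∈ att F S T := ls5_mem_att.2 ⟨hyS, x, hxTS, hadj.symm⟩
              have hR : ψ y ∈ (att F S T).image ψ := mem_image_of_mem ψ hyatt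
              rcases heq with ⟨h1', h2'⟩ | ⟨h1', h2'⟩
              · right
                left
                refine ⟨i, ⟨x, hxTS⟩, ?_, h1'.symm, y, hyS, ?_, hadj.symm⟩
                · rw [← h2', ey]
                  exact hR
                · rw [← h2', ey]
              · left
                refine ⟨i, ⟨x, hxTS⟩, ?_, h1'.symm, y, hyS, ?_, hadj.symm⟩
                · rw [← h2', ey]
                  exact hR
                · rw [← h2', ey]
            · have hyTS : y ∈ T \ S := mem_sdiff.2 ⟨hyT, hyS⟩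
              right
              right
              rcases heq with ⟨h1', h2'⟩ | ⟨h1', h2'⟩
              · exact ⟨i, ⟨x, hxTS⟩, ⟨y, hyTS⟩, h1'.symm, h2'.symm, Or.inl hadj⟩
              · exact ⟨i, ⟨y, hyTS⟩, ⟨x, hxTS⟩, h2'.symm, h1'.symm, Or.inr hadj⟩
      · rintro ⟨hne, hcase⟩
        refine ⟨?_, hne⟩
        rw [Finset.mem_coe, hmemD]
        rcases hcase with ⟨i, z, -, hb, y, hyS, hya, hadj⟩ | ⟨i, z, -, ha, y, hyS, hyb, hadj⟩ |
          ⟨i, z, z', ha, hb, hadj⟩
        · have h1 := (mem_Ext F H S T ψ (en i)).1 (hM (hen_mem i))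
          have ey : en i y = ψ y := h1.1 y (fun hh => (mem_sdiff.1 hh).2 hyS)
          refine ⟨en i, hen_mem i, s(y, z.1), ?_, ?_⟩
          · rw [mem_extEdges]
            exact ⟨hadj, hST hyS, (mem_sdiff.1 z.2).1, Or.inr (mem_sdiff.1 z.2).2⟩
          · rw [Sym2.map_mk, ey, hya, hb]
        · have h1 := (mem_Ext F H S T ψ (en i)).1 (hM (hen_mem i))
          have ey : en i y = ψ y := h1.1 y (fun hh => (mem_sdiff.1 hh).2 hyS)
          refine ⟨en i, hen_mem i, s(y, z.1), ?_, ?_⟩
          · rw [mem_extEdges]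
            exact ⟨hadj, hST hyS, (mem_sdiff.1 z.2).1, Or.inr (mem_sdiff.1 z.2).2⟩
          · rw [Sym2.map_mk, ey, hyb, ha]
            exact Sym2.eq_swap
        · refine ⟨en i, hen_mem i, s(z.1, z'.1), ?_, ?_⟩
          · rw [mem_extEdges]
            refine ⟨?_, (mem_sdiff.1 z.2).1, (mem_sdiff.1 z'.2).1, Or.inl (mem_sdiff.1 z.2).2⟩
            rcases hadj with h' | h'
            · exact h'
            · exact h'.symm
          · rw [Sym2.map_mk, ha, hb]
    have hcc := sunflower_copyCount_le ((att F S T).image ψ) M.card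
      (fun i (z : {z // z ∈ T \ S}) => en i z.1) hPinj hPdisj hPR
      (fun r (z : {z // z ∈ T \ S}) => ∃ y ∈ S, ψ y = r ∧ F.Adj y z.1)
      (fun (z z' : {z // z ∈ T \ S}) => F.Adj z.1 z'.1)
      (SimpleGraph.fromEdgeSet (D : Set (Sym2 (Fin n)))) hU
    have h1 := hyp_spanning h (SimpleGraph.fromEdgeSet (D : Set (Sym2 (Fin n)))) hUH
    have hcardU : (SimpleGraph.fromEdgeSet (D : Set (Sym2 (Fin n)))).edgeSet.ncard = D.card := by
      rw [hUe, Set.ncard_coe_finset]
    rw [hcardU, hcardD] at h1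
    have hRcard : ((att F S T).image ψ).card ≤ (extEdges F S T).card :=
      (Finset.card_image_le).trans (ls5_att_card_le F hST)
    have hn1 : 1 ≤ n := by omega
    have hcc2 : (⊤ : SimpleGraph (Fin n)).copyCount
          (SimpleGraph.fromEdgeSet (D : Set (Sym2 (Fin n)))) ≤
        n ^ (extEdges F S T).card * (n ^ (T \ S).card).choose M.card := by
      rw [hcardZ] at hcc
      exact hcc.trans (Nat.mul_le_mul_right _ (Nat.pow_le_pow_right hn1 hRcard))
    have hdesc : M.card.factorial * (n ^ (T \ S).card).choose M.card ≤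
        (n ^ (T \ S).card) ^ M.card := by
      rw [← Nat.descFactorial_eq_factorial_mul_choose]
      exact Nat.descFactorial_le_pow _ _
    have hqpow : 0 ≤ q ^ (M.card * (extEdges F S T).card) := pow_nonneg hq0 _
    have hfac : (0 : ℝ) ≤ (M.card.factorial : ℝ) := Nat.cast_nonneg _
    unfold wt
    calc (M.card.factorial : ℝ)
        ≤ (M.card.factorial : ℝ) * (((⊤ : SimpleGraph (Fin n)).copyCount
            (SimpleGraph.fromEdgeSet (D : Set (Sym2 (Fin n)))) : ℝ) *
              q ^ (M.card * (extEdges F S T).card)) := le_mul_of_one_le_right hfac h1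
      _ ≤ (M.card.factorial : ℝ) *
            (((n ^ (extEdges F S T).card * (n ^ (T \ S).card).choose M.card : ℕ) : ℝ) *
              q ^ (M.card * (extEdges F S T).card)) := by
          apply mul_le_mul_of_nonneg_left _ hfac
          apply mul_le_mul_of_nonneg_right _ hqpow
          exact_mod_cast hcc2
      _ = (n : ℝ) ^ (extEdges F S T).card *
            ((M.card.factorial * (n ^ (T \ S).card).choose M.card : ℕ) : ℝ) *
              q ^ (M.card * (extEdges F S T).card) := by
          push_cast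
          ring
      _ ≤ (n : ℝ) ^ (extEdges F S T).card * (((n ^ (T \ S).card) ^ M.card : ℕ) : ℝ) *
              q ^ (M.card * (extEdges F S T).card) := by
          apply mul_le_mul_of_nonneg_right _ hqpow
          apply mul_le_mul_of_nonneg_left _ (by positivity)
          exact_mod_cast hdesc
      _ = (n : ℝ) ^ (extEdges F S T).card *
            ((n : ℝ) ^ (T \ S).card * q ^ (extEdges F S T).card) ^ M.card := by
          push_cast
          ring

end Vale.Agent.Lib.P064.LS
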