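import Vale.Agent.KK.LS.Defs
import Vale.Agent.Lib.P064.ls.Basic
import Vale.Agent.Lib.P064.ls.RigidCount
import Vale.Agent.Lib.P064.ls.Sunflower

/-!
# One step of the chain: a sunflower of extensions and rigid remainders

For `S ⊂ T` such that every extension problem strictly between `S` and `T` has expected count
below one at density `2 q`, take a maximal family `M` of extensions of `ψ` from `S` to `T` that
are pairwise disjoint on `T \ S`. The sunflower bound controls `t = |M|`, and every extension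
shares a value with a member of `M`; fixing that value leaves a rigid problem with one new
vertex less, which has at most `(log2 n) ^ (m - 1)` solutions.
-/

namespace Vale.Agent.Lib.P064.LS

open Finset SimpleGraph Vale.Agent.KK Vale.Agent.KK.LS

variable {V W : Type*} [Fintype V] [Fintype W] [DecidableEq W]

/-- Every extension meets a member of a maximal disjoint family. -/
theorem ls6_meets {n : ℕ} (H : SimpleGraph (Fin n)) (F : SimpleGraph W)
    (S T : Finset W) (hST : S ⊂ T) (ψ : W → Fin n) :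
    ∃ M : Finset (W → Fin n), M ⊆ Ext F H S T ψ ∧
      (∀ φ ∈ M, ∀ φ' ∈ M, φ ≠ φ' → ∀ x ∈ T \ S, ∀ x' ∈ T \ S, φ x ≠ φ' x') ∧
      ∀ φ ∈ Ext F H S T ψ, ∃ φ' ∈ M, ∃ x' ∈ T \ S, ∃ x ∈ T \ S, φ x = φ' x' := by
  classical
  set D : Finset (W → Fin n) → Prop := fun M =>
    ∀ φ ∈ M, ∀ φ' ∈ M, φ ≠ φ' → ∀ x ∈ T \ S, ∀ x' ∈ T \ S, φ x ≠ φ' x' with hD
  have hne : ((Ext F H S T ψ).powerset.filter D).Nonempty := by
    refine ⟨∅, ?_⟩
    rw [Finset.mem_filter]
    refine ⟨Finset.mem_powerset.2 (Finset.empty_subset _), ?_⟩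
    intro φ hφ
    exact absurd hφ (Finset.notMem_empty φ)
  obtain ⟨M, hM, hmax⟩ := Finset.exists_max_image _ Finset.card hne
  rw [Finset.mem_filter, Finset.mem_powerset] at hM
  obtain ⟨hMsub, hMD⟩ := hM
  refine ⟨M, hMsub, hMD, ?_⟩
  intro φ hφ
  obtain ⟨x0, hx0⟩ : (T \ S).Nonempty := by
    rw [Finset.nonempty_iff_ne_empty]
    intro h0
    rw [Finset.sdiff_eq_empty_iff_subset] at h0
    exact hST.2 h0
  by_cases hφM : φ ∈ M
  · exact ⟨φ, hφM, x0, hx0, x0, hx0, rfl⟩
  · have hnotD : ¬ D (insert φ M) := by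
      intro hDi
      have hmem : insert φ M ∈ (Ext F H S T ψ).powerset.filter D := by
        rw [Finset.mem_filter, Finset.mem_powerset]
        exact ⟨Finset.insert_subset hφ hMsub, hDi⟩
      have h1 := hmax _ hmem
      rw [Finset.card_insert_of_notMem hφM] at h1
      omega
    rw [hD] at hnotD
    simp only [not_forall] at hnotD
    obtain ⟨φ1, h1, φ2, h2, hne12, x, hx, x', hx', hxx⟩ := hnotD
    have hxx' : φ1 x = φ2 x' := not_not.1 hxx
    rw [Finset.mem_insert] at h1 h2
    rcases h1 with h1 | h1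
    · rcases h2 with h2 | h2
      · exact absurd (h1.trans h2.symm) hne12
      · subst h1
        exact ⟨φ2, h2, x', hx', x, hx, hxx'⟩
    · rcases h2 with h2 | h2
      · subst h2
        exact ⟨φ1, h1, x, hx, x', hx', hxx'.symm⟩
      · exact absurd hxx' (hMD φ1 h1 φ2 h2 hne12 x hx x' hx')

theorem step_count {n : ℕ} (hn : 2 ≤ n) (H : SimpleGraph (Fin n)) (F : SimpleGraph W) {q : ℝ}
    (hq0 : 0 < q) (hq1 : 2 * q ≤ 1) (h : SubgraphsExpected n H q) (hW : WeakHyp n H q)
    (S T : Finset W) (hST : S ⊂ T)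
    (hR : ∀ X, S ⊂ X → X ⊂ T → wt n (2 * q) F X T < 1) (ψ : W → Fin n) :
    ∃ t : ℕ, (t.factorial : ℝ) ≤ (n : ℝ) ^ (extEdges F S T).card * (wt n q F S T) ^ t ∧
      (Ext F H S T ψ).card ≤ (T \ S).card ^ 2 * t * (Nat.clog 2 n) ^ ((T \ S).card - 1) := by
  classical
  obtain ⟨M, hMsub, hMD, hmeet⟩ := ls6_meets H F S T hST ψ
  refine ⟨M.card, ?_, ?_⟩
  · exact sunflower_bound hn H F hq0.le (by linarith) h S T hST.1 ψ M hMsub hMD
  · -- each piece is small
    have hpiece : ∀ (x : W), x ∈ T \ S → ∀ (v : Fin n),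
        (Ext F H (insert x S) T (Function.update ψ x v)).card
          ≤ (Nat.clog 2 n) ^ ((T \ S).card - 1) := by
      intro x hx v
      have hxT : x ∈ T := (Finset.mem_sdiff.1 hx).1
      have hxS : x ∉ S := (Finset.mem_sdiff.1 hx).2
      have hsub : insert x S ⊆ T := Finset.insert_subset hxT hST.1
      have hrig : Rigid n (2 * q) F (insert x S) T := by
        intro X' hX' hX'T
        refine hR X' ?_ hX'T
        refine ⟨(Finset.subset_insert x S).trans hX', ?_⟩
        intro hcon
        exact hxS (hcon (hX' (Finset.mem_insert_self x S)))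
      have hc := rigid_count hn H F hq0 hq1 hW (insert x S) T hsub hrig (Function.update ψ x v)
      have hcard : (T \ insert x S).card = (T \ S).card - 1 := by
        have : T \ insert x S = (T \ S).erase x := by
          ext w
          simp only [Finset.mem_sdiff, Finset.mem_insert, Finset.mem_erase]
          tauto
        rw [this, Finset.card_erase_of_mem hx]
      rw [hcard] at hc
      exact hc
    have hcover : Ext F H S T ψ ⊆ M.biUnion (fun φ' => (T \ S).biUnion (fun x' =>
        (T \ S).biUnion (fun x => Ext F H (insert x S) T (Function.update ψ x (φ' x'))))) := by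
      intro φ hφ
      obtain ⟨φ', hφ', x', hx', x, hx, hxx⟩ := hmeet φ hφ
      rw [Finset.mem_biUnion]
      refine ⟨φ', hφ', ?_⟩
      rw [Finset.mem_biUnion]
      refine ⟨x', hx', ?_⟩
      rw [Finset.mem_biUnion]
      refine ⟨x, hx, ?_⟩
      have := Ext_update F H hφ hx
      rw [hxx] at this
      exact this
    have h1 : ∀ φ' ∈ M, ∀ x' ∈ T \ S,
        ((T \ S).biUnion (fun x => Ext F H (insert x S) T (Function.update ψ x (φ' x')))).card
          ≤ (T \ S).card * (Nat.clog 2 n) ^ ((T \ S).card - 1) := by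
      intro φ' _ x' _
      exact Finset.card_biUnion_le_card_mul _ _ _ (fun x hx => hpiece x hx (φ' x'))
    have h2 : ∀ φ' ∈ M,
        ((T \ S).biUnion (fun x' =>
          (T \ S).biUnion (fun x => Ext F H (insert x S) T (Function.update ψ x (φ' x'))))).card
          ≤ (T \ S).card * ((T \ S).card * (Nat.clog 2 n) ^ ((T \ S).card - 1)) := by
      intro φ' hφ'
      exact Finset.card_biUnion_le_card_mul _ _ _ (fun x' hx' => h1 φ' hφ' x' hx')
    have h3 := Finset.card_biUnion_le_card_mul M _ _ h2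
    calc (Ext F H S T ψ).card ≤ _ := Finset.card_le_card hcover
      _ ≤ M.card * ((T \ S).card * ((T \ S).card * (Nat.clog 2 n) ^ ((T \ S).card - 1))) := h3
      _ = (T \ S).card ^ 2 * M.card * (Nat.clog 2 n) ^ ((T \ S).card - 1) := by ring

end Vale.Agent.Lib.P064.LS
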