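import Vale.Agent.KK.LS.Defs

/-!
# A non-trivial rigid-from-above step has at least as many edges as vertices

If every proper intermediate extension problem towards `T` has expected count below one at
density `r` with `1 ≤ n * r`, then every vertex of `T \ S` lies in at least two extension edges,
so `|T \ S| ≤ |extEdges F S T|` as soon as `T \ S` has at least two elements.
-/

namespace Vale.Agent.Lib.P064.LS

open Finset SimpleGraph Vale.Agent.KK Vale.Agent.KK.LS

variable {V W : Type*} [Fintype V] [Fintype W] [DecidableEq W]

omit [Fintype W] in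
/-- An edge contains at most two vertices of any given finite set. -/
theorem ls7_card_filter_mem_le_two (A : Finset W) (e : Sym2 W) :
    (A.filter (fun b => b ∈ e)).card ≤ 2 := by
  classical
  induction e using Sym2.ind with
  | _ x y =>
    have hsub : A.filter (fun b => b ∈ s(x, y)) ⊆ {x, y} := by
      intro b hb
      rw [Finset.mem_filter, Sym2.mem_iff] at hb
      rw [Finset.mem_insert, Finset.mem_singleton]
      exact hb.2
    exact le_trans (Finset.card_le_card hsub) Finset.card_le_two

/-- An extension edge from `T.erase b` to `T` is an extension edge from `S` to `T` through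
`b`, when `b ∉ S`. -/
theorem ls7_mem_of_mem_erase (F : SimpleGraph W) {S T : Finset W} {b : W} (hb : b ∉ S)
    {e : Sym2 W} (he : e ∈ extEdges F (T.erase b) T) : e ∈ extEdges F S T ∧ b ∈ e := by
  classical
  unfold extEdges at he ⊢
  rw [Finset.mem_filter] at he ⊢
  obtain ⟨_, he1, he2, he3⟩ := he
  have hbe : b ∈ e := by
    by_contra hcon
    apply he3
    intro v hv
    rw [Finset.mem_erase]
    refine ⟨?_, he2 v hv⟩
    rintro rfl
    exact hcon hv
  refine ⟨⟨Finset.mem_univ _, he1, he2, ?_⟩, hbe⟩
  intro hall
  exact hb (hall b hbe)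

theorem step_edges_ge {n : ℕ} (F : SimpleGraph W) {r : ℝ} (hr0 : 0 < r) (hr1 : r ≤ 1)
    (hnr : 1 ≤ n * r) (S T : Finset W) (hST : S ⊆ T) (hm : 2 ≤ (T \ S).card)
    (hR : ∀ X, S ⊂ X → X ⊂ T → wt n r F X T < 1) :
    (T \ S).card ≤ (extEdges F S T).card := by
  classical
  have hn1 : (1 : ℝ) ≤ n := by
    by_contra hcon
    push Not at hcon
    have h0 : (n : ℝ) = 0 := by
      have : n = 0 := by
        by_contra hne
        have : (1 : ℝ) ≤ n := by exact_mod_cast Nat.one_le_iff_ne_zero.mpr hne
        linarith
      simp [this]
    rw [h0] at hnr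
    linarith
  -- every vertex of `T \ S` lies in at least two extension edges
  have hdeg : ∀ b ∈ T \ S, 2 ≤ (extEdges F (T.erase b) T).card := by
    intro b hb
    rw [Finset.mem_sdiff] at hb
    obtain ⟨b', hb', hne⟩ : ∃ b' ∈ T \ S, b' ≠ b := by
      by_contra hcon
      push Not at hcon
      have hsub : T \ S ⊆ {b} := by
        intro x hx
        rw [Finset.mem_singleton]
        exact hcon x hx
      have := Finset.card_le_card hsub
      rw [Finset.card_singleton] at this
      omega
    rw [Finset.mem_sdiff] at hb'
    have hSX : S ⊂ T.erase b := by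
      rw [Finset.ssubset_iff_of_subset]
      · exact ⟨b', Finset.mem_erase.mpr ⟨hne, hb'.1⟩, hb'.2⟩
      · intro x hx
        rw [Finset.mem_erase]
        refine ⟨?_, hST hx⟩
        rintro rfl
        exact hb.2 hx
    have hXT : T.erase b ⊂ T := Finset.erase_ssubset hb.1
    have hlt := hR (T.erase b) hSX hXT
    unfold wt at hlt
    have hcard : (T \ T.erase b).card = 1 := by
      have : T \ T.erase b = {b} := by
        ext x
        simp only [Finset.mem_sdiff, Finset.mem_erase, Finset.mem_singleton]
        constructor
        · rintro ⟨hx, hnx⟩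
          by_contra hxb
          exact hnx ⟨hxb, hx⟩
        · rintro rfl
          exact ⟨hb.1, fun h => h.1 rfl⟩
      rw [this, Finset.card_singleton]
    rw [hcard, pow_one] at hlt
    by_contra hcon
    push Not at hcon
    have hd : (extEdges F (T.erase b) T).card = 0 ∨ (extEdges F (T.erase b) T).card = 1 := by
      omega
    rcases hd with hd | hd
    · rw [hd, pow_zero, mul_one] at hlt
      linarith
    · rw [hd, pow_one] at hlt
      linarith
  -- double counting
  have h1 : 2 * (T \ S).card ≤ ∑ b ∈ T \ S, (extEdges F (T.erase b) T).card := by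
    have := Finset.card_nsmul_le_sum (T \ S) (fun b => (extEdges F (T.erase b) T).card) 2 hdeg
    simpa [mul_comm] using this
  have h2 : ∑ b ∈ T \ S, (extEdges F (T.erase b) T).card
      ≤ ∑ b ∈ T \ S, ((extEdges F S T).filter (fun e => b ∈ e)).card := by
    refine Finset.sum_le_sum (fun b hb => Finset.card_le_card ?_)
    intro e he
    rw [Finset.mem_sdiff] at hb
    have := ls7_mem_of_mem_erase F hb.2 he
    rw [Finset.mem_filter]
    exact this
  have h3 : ∑ b ∈ T \ S, ((extEdges F S T).filter (fun e => b ∈ e)).card
      = ∑ e ∈ extEdges F S T, ((T \ S).filter (fun b => b ∈ e)).card :=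
    Finset.sum_card_bipartiteAbove_eq_sum_card_bipartiteBelow (fun (b : W) (e : Sym2 W) => b ∈ e)
  have h4 : ∑ e ∈ extEdges F S T, ((T \ S).filter (fun b => b ∈ e)).card
      ≤ 2 * (extEdges F S T).card := by
    have := Finset.sum_le_card_nsmul (extEdges F S T)
      (fun e => ((T \ S).filter (fun b => b ∈ e)).card) 2
      (fun e _ => ls7_card_filter_mem_le_two (T \ S) e)
    simpa [mul_comm] using this
  omega

end Vale.Agent.Lib.P064.LS
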