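import Vale.Agent.KK.LS.Defs
import Vale.Agent.Lib.P064.ls.Basic
import Vale.Agent.Lib.P064.ls.StepCount
import Vale.Agent.Lib.P064.ls.StepEdges
import Vale.Agent.Lib.P064.ls.StepArith

/-!
# Counting extensions along a chain of minimisers
-/

namespace Vale.Agent.Lib.P064.LS

open Finset SimpleGraph Vale.Agent.KK Vale.Agent.KK.LS

variable {V W : Type*} [Fintype V] [Fintype W] [DecidableEq W]

/-- One step of the chain: for a minimiser `T` of the weight with all intermediate problems of
weight below one, the number of extensions from `S` to `T` is at most the weight times a power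
of `16 log n`. -/
theorem ls9b_step {n : ℕ} (hn : 2 ≤ n) (H : SimpleGraph (Fin n)) (F : SimpleGraph W) {q : ℝ}
    (hq0 : 0 < q) (hq1 : 2 * q ≤ 1) (hnq : 1 ≤ n * (2 * q)) (h : SubgraphsExpected n H q)
    (hW : WeakHyp n H q) (S T : Finset W) (hST : S ⊂ T)
    (P1 : 1 ≤ wt n (2 * q) F S T)
    (P2 : ∀ X, S ⊂ X → X ⊂ T → wt n (2 * q) F X T < 1) (ψ : W → Fin n) :
    ((Ext F H S T ψ).card : ℝ) ≤
      wt n (2 * q) F S T * (16 * Real.log n) ^ (extEdges F S T).card := by
  classical
  have h2q : 0 < 2 * q := by linarith
  have hm1 : 1 ≤ (T \ S).card :=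
    Finset.card_pos.2 (Finset.sdiff_nonempty.2 hST.2)
  have hme : (T \ S).card = 1 ∨ (T \ S).card ≤ (extEdges F S T).card := by
    by_cases h2 : 2 ≤ (T \ S).card
    · exact Or.inr (step_edges_ge F h2q hq1 hnq S T hST.subset h2 P2)
    · exact Or.inl (by omega)
  rcases Nat.eq_zero_or_pos (extEdges F S T).card with he0 | hepos
  · have hm_eq : (T \ S).card = 1 := by
      rcases hme with h' | h'
      · exact h'
      · omega
    have hc := Ext_card_le_pow F H S T ψ
    rw [Fintype.card_fin, hm_eq, pow_one] at hc
    unfold wt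
    rw [hm_eq, he0, pow_one, pow_zero, pow_zero, mul_one, mul_one]
    exact_mod_cast hc
  · obtain ⟨t, ht1, ht2⟩ := step_count hn H F hq0 hq1 h hW S T hST P2 ψ
    unfold wt at ht1 P1 ⊢
    have h3 := step_arith hn (T \ S).card (extEdges F S T).card t q hq0 hm1 hepos hme P1 ht1
    have h4 : ((Ext F H S T ψ).card : ℝ) ≤
        (((T \ S).card ^ 2 * t * (Nat.clog 2 n) ^ ((T \ S).card - 1) : ℕ) : ℝ) := by
      exact_mod_cast ht2
    exact le_trans h4 h3

theorem chain_count {n : ℕ} (hn : 2 ≤ n) (H : SimpleGraph (Fin n)) (F : SimpleGraph W) {q : ℝ}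
    (hq0 : 0 < q) (hq1 : 2 * q ≤ 1) (hnq : 1 ≤ n * (2 * q)) (h : SubgraphsExpected n H q)
    (hW : WeakHyp n H q) (S : Finset W)
    (hgood : ∀ X, S ⊆ X → 1 ≤ wt n (2 * q) F S X) (ψ : W → Fin n) :
    ((Ext F H S univ ψ).card : ℝ) ≤
      wt n (2 * q) F S univ * (16 * Real.log n) ^ (extEdges F S univ).card := by
  classical
  have hnR : (2 : ℝ) ≤ n := by exact_mod_cast hn
  have hlog0 : 0 ≤ Real.log n := Real.log_nonneg (by linarith)
  have hK : 0 ≤ 16 * Real.log n := by positivity
  have hnpos : 0 < n := by omega
  have h2q : 0 < 2 * q := by linarith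
  have main : ∀ k : ℕ, ∀ S : Finset W, (univ \ S).card = k →
      (∀ X, S ⊆ X → 1 ≤ wt n (2 * q) F S X) → ∀ ψ : W → Fin n,
      ((Ext F H S univ ψ).card : ℝ) ≤
        wt n (2 * q) F S univ * (16 * Real.log n) ^ (extEdges F S univ).card := by
    intro k
    induction k using Nat.strong_induction_on with
    | _ k ih =>
      intro S hk hgood ψ
      by_cases hS : S = univ
      · rw [hS, wt_self, extEdges_self, Finset.card_empty, pow_zero, mul_one]
        exact_mod_cast Ext_self_card F H univ ψ
      · have hSuniv : S ⊂ univ := Finset.ssubset_univ_iff.2 hS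
        have hne : ((univ : Finset (Finset W)).filter (fun T => S ⊂ T)).Nonempty :=
          ⟨univ, Finset.mem_filter.2 ⟨Finset.mem_univ _, hSuniv⟩⟩
        obtain ⟨T0, hT0mem, hT0min⟩ :=
          Finset.exists_min_image _ (fun T => wt n (2 * q) F S T) hne
        have hne2 : (((univ : Finset (Finset W)).filter (fun T => S ⊂ T)).filter
            (fun T => wt n (2 * q) F S T = wt n (2 * q) F S T0)).Nonempty :=
          ⟨T0, Finset.mem_filter.2 ⟨hT0mem, rfl⟩⟩
        obtain ⟨T, hTmem, hTmin⟩ := Finset.exists_min_image _ (fun T => T.card) hne2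
        have hST : S ⊂ T := (Finset.mem_filter.1 (Finset.mem_filter.1 hTmem).1).2
        have hTw : wt n (2 * q) F S T = wt n (2 * q) F S T0 := (Finset.mem_filter.1 hTmem).2
        have hmin : ∀ T', S ⊂ T' → wt n (2 * q) F S T ≤ wt n (2 * q) F S T' := by
          intro T' hT'
          rw [hTw]
          exact hT0min T' (Finset.mem_filter.2 ⟨Finset.mem_univ _, hT'⟩)
        have hmincard : ∀ T', S ⊂ T' → wt n (2 * q) F S T' = wt n (2 * q) F S T →
            T.card ≤ T'.card := by
          intro T' hT' hw
          exact hTmin T' (Finset.mem_filter.2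
            ⟨Finset.mem_filter.2 ⟨Finset.mem_univ _, hT'⟩, hw.trans hTw⟩)
        have P1 : 1 ≤ wt n (2 * q) F S T := hgood T hST.subset
        have P2 : ∀ X, S ⊂ X → X ⊂ T → wt n (2 * q) F X T < 1 := by
          intro X hSX hXT
          by_contra hcon
          rw [not_lt] at hcon
          have hmul := wt_mul n (2 * q) F hSX.subset hXT.subset
          have h1 := hmin X hSX
          have hposSX := wt_pos hnpos h2q F S X
          have h2 : wt n (2 * q) F S X ≤ wt n (2 * q) F S T := by
            rw [hmul]
            nlinarith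
          have h3 : wt n (2 * q) F S X = wt n (2 * q) F S T := le_antisymm h2 h1
          have h4 := hmincard X hSX h3
          have h5 := Finset.card_lt_card hXT
          omega
        have P3 : ∀ X, T ⊆ X → 1 ≤ wt n (2 * q) F T X := by
          intro X hTX
          have hmul := wt_mul n (2 * q) F hST.subset hTX
          have hSX : S ⊂ X := Finset.ssubset_of_ssubset_of_subset hST hTX
          have h1 := hmin X hSX
          have hpos := wt_pos hnpos h2q F S T
          by_contra hcon
          rw [not_le] at hcon
          rw [hmul] at h1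
          nlinarith
        have hstep := ls9b_step hn H F hq0 hq1 hnq h hW S T hST P1 P2 ψ
        have hk' : (univ \ T).card < k := by
          have e1 := Finset.card_sdiff_add_card_eq_card (Finset.subset_univ T)
          have e2 := Finset.card_sdiff_add_card_eq_card (Finset.subset_univ S)
          have e3 := Finset.card_lt_card hST
          omega
        have hIH : ∀ φ : W → Fin n, ((Ext F H T univ φ).card : ℝ) ≤
            wt n (2 * q) F T univ * (16 * Real.log n) ^ (extEdges F T univ).card :=
          fun φ => ih _ hk' T rfl P3 φ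
        have hsplit := Ext_split_card F H hST.subset (Finset.subset_univ T) ψ _ hIH
        have hposT := wt_pos hnpos h2q F T univ
        have hN0 : 0 ≤ wt n (2 * q) F T univ * (16 * Real.log n) ^ (extEdges F T univ).card :=
          mul_nonneg hposT.le (pow_nonneg hK _)
        calc ((Ext F H S univ ψ).card : ℝ)
            ≤ ((Ext F H S T ψ).card : ℝ) *
              (wt n (2 * q) F T univ * (16 * Real.log n) ^ (extEdges F T univ).card) := hsplit
          _ ≤ (wt n (2 * q) F S T * (16 * Real.log n) ^ (extEdges F S T).card) *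
              (wt n (2 * q) F T univ * (16 * Real.log n) ^ (extEdges F T univ).card) :=
              mul_le_mul_of_nonneg_right hstep hN0
          _ = wt n (2 * q) F S univ * (16 * Real.log n) ^ (extEdges F S univ).card := by
              rw [wt_mul n (2 * q) F hST.subset (Finset.subset_univ T),
                extEdges_card_add F hST.subset (Finset.subset_univ T), pow_add]
              ring
  exact main _ S rfl hgood ψ

end Vale.Agent.Lib.P064.LS
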