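import Vale.Agent.KK.LS.Defs
import Vale.Agent.Lib.P064.ls.Chain

/-!
# The labelled copy-count inequality for all patterns

From the chain bound for extensions: the number of labelled copies of any pattern `F` in a host
`H` on `n` vertices that satisfies the expectation hypothesis at density `q` is at most
`n ^ |V(F)| * (32 q log n) ^ e(F)`, and at most `n! * min 1 (240 q log n) ^ e(F)` for patterns
on `n` vertices.
-/

namespace Vale.Agent.Lib.P064.LS

open Finset SimpleGraph Vale.Agent.KK Vale.Agent.KK.LS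

variable {V W : Type*} [Fintype V] [Fintype W] [DecidableEq W]

/-- The expectation hypothesis gives the weak hypothesis on edge sets. -/
theorem weakHyp_of_hyp {n : ℕ} {H : SimpleGraph (Fin n)} {q : ℝ} (hq : 0 ≤ q)
    (h : SubgraphsExpected n H q) : WeakHyp n H q := by
  intro D hD
  have hUe : (SimpleGraph.fromEdgeSet (D : Set (Sym2 (Fin n)))).edgeSet =
      (D : Set (Sym2 (Fin n))) := Vale.Agent.Lib.P064.RG.h23_edgeSet_fromEdgeSet D hD
  have hUH : SimpleGraph.fromEdgeSet (D : Set (Sym2 (Fin n))) ≤ H := by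
    intro a b hab
    rw [SimpleGraph.fromEdgeSet_adj] at hab
    exact (SimpleGraph.mem_edgeSet H).1 (hD _ (Finset.mem_coe.1 hab.1))
  have h1 := hyp_spanning h (SimpleGraph.fromEdgeSet (D : Set (Sym2 (Fin n)))) hUH
  have hcard : (SimpleGraph.fromEdgeSet (D : Set (Sym2 (Fin n)))).edgeSet.ncard = D.card := by
    rw [hUe, Set.ncard_coe_finset]
  rw [hcard] at h1
  have h2 : ((⊤ : SimpleGraph (Fin n)).copyCount
      (SimpleGraph.fromEdgeSet (D : Set (Sym2 (Fin n)))) : ℝ) ≤
      (n : ℝ) ^ (Vale.Agent.KK.RG.vset D).card := by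
    exact_mod_cast Vale.Agent.Lib.P064.RG.h23_copyCount_le D _ hUe
  exact le_trans h1 (mul_le_mul_of_nonneg_right h2 (pow_nonneg hq _))

/-- Membership of a pair in the set of extension edges. -/
theorem ls10_mem_extEdges (F : SimpleGraph W) (S T : Finset W) (x y : W) :
    s(x, y) ∈ extEdges F S T ↔ F.Adj x y ∧ x ∈ T ∧ y ∈ T ∧ (x ∉ S ∨ y ∉ S) := by
  classical
  unfold extEdges
  simp only [Finset.mem_filter, Finset.mem_univ, true_and, SimpleGraph.mem_edgeSet,
    Sym2.mem_iff, forall_eq_or_imp, forall_eq]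
  constructor
  · rintro ⟨h1, ⟨h2, h3⟩, h4⟩
    refine ⟨h1, h2, h3, ?_⟩
    by_contra hcon
    rw [not_or, not_not, not_not] at hcon
    exact h4 ⟨hcon.1, hcon.2⟩
  · rintro ⟨h1, h2, h3, h4⟩
    refine ⟨h1, ⟨h2, h3⟩, ?_⟩
    rintro ⟨h5, h6⟩
    rcases h4 with h4 | h4
    · exact h4 h5
    · exact h4 h6

/-- Membership in the set of extensions. -/
theorem ls10_mem_Ext (F : SimpleGraph W) (H : SimpleGraph V) (S T : Finset W) (ψ φ : W → V) :
    φ ∈ Ext F H S T ψ ↔ (∀ w, w ∉ T \ S → φ w = ψ w) ∧ Set.InjOn φ (T : Set W) ∧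
      ∀ x y, F.Adj x y → x ∈ T → y ∈ T → (x ∉ S ∨ y ∉ S) → H.Adj (φ x) (φ y) := by
  classical
  unfold Vale.Agent.KK.LS.Ext
  simp only [Finset.mem_filter, Finset.mem_univ, true_and]

/-- All edges of the pattern are extension edges from the empty set to the whole vertex set. -/
theorem ls10_card_extEdges_univ (F : SimpleGraph W) :
    (extEdges F ∅ univ).card = F.edgeSet.ncard := by
  classical
  rw [← Set.ncard_coe_finset]
  congr 1
  ext e
  induction e using Sym2.ind with
  | _ x y =>
    rw [Finset.mem_coe, ls10_mem_extEdges]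
    simp

/-- Every labelled copy is an extension of any fixed map from the empty set. -/
theorem ls10_card_copy_le {n : ℕ} (H : SimpleGraph (Fin n)) (F : SimpleGraph W)
    (ψ : W → Fin n) : Nat.card (Copy F H) ≤ (Ext F H ∅ univ ψ).card := by
  classical
  have hmem : ∀ φ : Copy F H, (⇑φ : W → Fin n) ∈ Ext F H ∅ univ ψ := by
    intro φ
    rw [ls10_mem_Ext]
    refine ⟨?_, ?_, ?_⟩
    · intro w hw
      exact absurd (by simp) hw
    · exact φ.injective.injOn
    · intro x y hxy _ _ _
      exact φ.toHom.map_adj hxy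
  have hinj : Function.Injective
      (fun φ : Copy F H => (⟨⇑φ, hmem φ⟩ : {x // x ∈ Ext F H ∅ univ ψ})) := by
    intro φ φ' hh
    exact DFunLike.coe_injective (congrArg Subtype.val hh)
  have h1 := Nat.card_le_card_of_injective _ hinj
  have h2 : Nat.card {x // x ∈ Ext F H ∅ univ ψ} = (Ext F H ∅ univ ψ).card := by
    rw [Nat.card_eq_fintype_card, Fintype.card_coe]
  rwa [h2] at h1

/-- If the pattern has a labelled copy in the host, every extension problem from the empty set
has expected count at least one at density `2 q`. -/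
theorem ls10_good_empty {n : ℕ} (hn : 2 ≤ n) {H : SimpleGraph (Fin n)} {q : ℝ} (hq0 : 0 < q)
    (hW : WeakHyp n H q) (F : SimpleGraph W) (f0 : Copy F H) (X : Finset W) :
    1 ≤ wt n (2 * q) F ∅ X := by
  classical
  have hnR : (2 : ℝ) ≤ n := by exact_mod_cast hn
  have hn1 : (1 : ℝ) ≤ n := by linarith
  set D : Finset (Sym2 (Fin n)) := (extEdges F ∅ X).image (Sym2.map f0) with hD
  have hDH : ∀ e ∈ D, e ∈ H.edgeSet := by
    intro e he
    rw [hD, Finset.mem_image] at he
    obtain ⟨e', he', rfl⟩ := he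
    induction e' using Sym2.ind with
    | _ x y =>
      rw [ls10_mem_extEdges] at he'
      rw [Sym2.map_mk]
      exact (SimpleGraph.mem_edgeSet H).2 (f0.toHom.map_adj he'.1)
  have hDcard : D.card = (extEdges F ∅ X).card := by
    rw [hD]
    exact Finset.card_image_of_injective _ (Sym2.map.injective f0.injective)
  have hv : Vale.Agent.KK.RG.vset D ⊆ X.image f0 := by
    intro v hv
    unfold Vale.Agent.KK.RG.vset at hv
    simp only [Finset.mem_filter, Finset.mem_univ, true_and] at hv
    obtain ⟨e, he, hve⟩ := hv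
    rw [hD, Finset.mem_image] at he
    obtain ⟨e', he', rfl⟩ := he
    rw [Sym2.mem_map] at hve
    obtain ⟨w, hw, rfl⟩ := hve
    refine Finset.mem_image.2 ⟨w, ?_, rfl⟩
    induction e' using Sym2.ind with
    | _ x y =>
      rw [ls10_mem_extEdges] at he'
      rcases Sym2.mem_iff.1 hw with rfl | rfl
      · exact he'.2.1
      · exact he'.2.2.1
  have hvcard : (Vale.Agent.KK.RG.vset D).card ≤ X.card :=
    le_trans (Finset.card_le_card hv) Finset.card_image_le
  have h3 := hW D hDH
  unfold wt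
  rw [Finset.sdiff_empty, ← hDcard]
  calc (1 : ℝ) ≤ (n : ℝ) ^ (Vale.Agent.KK.RG.vset D).card * q ^ D.card := h3
    _ ≤ (n : ℝ) ^ X.card * (2 * q) ^ D.card :=
        mul_le_mul (pow_le_pow_right₀ hn1 hvcard)
          (pow_le_pow_left₀ hq0.le (by linarith) _) (by positivity) (by positivity)

theorem labelled_pow {n : ℕ} (hn : 2 ≤ n) (H : SimpleGraph (Fin n)) {q : ℝ}
    (hq0 : 0 < q) (hq1 : 2 * q ≤ 1) (hnq : 1 ≤ n * (2 * q)) (h : SubgraphsExpected n H q)
    (W : Type) [Fintype W] [DecidableEq W] (F : SimpleGraph W) :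
    (H.labelledCopyCount F : ℝ) ≤
      (n : ℝ) ^ Fintype.card W * (32 * q * Real.log n) ^ F.edgeSet.ncard := by
  classical
  have hnR : (2 : ℝ) ≤ n := by exact_mod_cast hn
  have hlog0 : 0 ≤ Real.log n := Real.log_nonneg (by linarith)
  rw [labelledCopyCount_eq_natCard]
  by_cases hne : Nonempty (Copy F H)
  swap
  · rw [not_nonempty_iff] at hne
    rw [Nat.card_of_isEmpty]
    simp only [Nat.cast_zero]
    have h0 : 0 ≤ 32 * q * Real.log n := by positivity
    positivity
  obtain ⟨f0⟩ := hne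
  have hW := weakHyp_of_hyp hq0.le h
  have h1 := ls10_card_copy_le H F (⇑f0)
  have hgood : ∀ X : Finset W, ∅ ⊆ X → 1 ≤ wt n (2 * q) F ∅ X :=
    fun X _ => ls10_good_empty hn hq0 hW F f0 X
  have h4 := chain_count hn H F hq0 hq1 hnq h hW ∅ hgood (⇑f0)
  unfold wt at h4
  rw [Finset.sdiff_empty, Finset.card_univ, ls10_card_extEdges_univ] at h4
  calc (Nat.card (Copy F H) : ℝ) ≤ ((Ext F H ∅ univ (⇑f0)).card : ℝ) := by exact_mod_cast h1
    _ ≤ (n : ℝ) ^ Fintype.card W * (2 * q) ^ F.edgeSet.ncard *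
          (16 * Real.log n) ^ F.edgeSet.ncard := h4
    _ = (n : ℝ) ^ Fintype.card W * (32 * q * Real.log n) ^ F.edgeSet.ncard := by
        rw [mul_assoc, ← mul_pow]
        ring_nf

/-- The labelled inequality with a falling factorial, for patterns without isolated vertices. -/
theorem ls10_main {n : ℕ} (hn : 2 ≤ n) (H : SimpleGraph (Fin n)) {q : ℝ}
    (hq0 : 0 < q) (hq1 : 2 * q ≤ 1) (hnq : 1 ≤ n * (2 * q)) (h : SubgraphsExpected n H q)
    (W : Type) [Fintype W] (F : SimpleGraph W) (hiso : ∀ w, ∃ w', F.Adj w w') :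
    (H.labelledCopyCount F : ℝ) ≤
      (n.descFactorial (Fintype.card W) : ℝ) * (240 * q * Real.log n) ^ F.edgeSet.ncard := by
  classical
  have hnR : (2 : ℝ) ≤ n := by exact_mod_cast hn
  have hlog0 : 0 ≤ Real.log n := Real.log_nonneg (by linarith)
  have hql : 0 ≤ q * Real.log n := mul_nonneg hq0.le hlog0
  by_cases hw : Fintype.card W ≤ n
  swap
  · rw [labelled_eq_zero_of_card_lt H F (not_le.1 hw)]
    simp only [Nat.cast_zero]
    have h0 : 0 ≤ 240 * q * Real.log n := by nlinarith
    positivity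
  have hcard2 := card_le_two_mul_edges F hiso
  have hconv := pow_le_exp_pow_mul_descFactorial n (Fintype.card W) hw
  have hexp1 : 1 ≤ Real.exp 1 := Real.one_le_exp (by norm_num)
  have hD0 : (0 : ℝ) ≤ (n.descFactorial (Fintype.card W) : ℝ) := Nat.cast_nonneg _
  have hexp2 : Real.exp 1 ^ 2 ≤ 7.5 := by
    have h1 : Real.exp 1 < 2.7182818286 := Real.exp_one_lt_d9
    have h0 : (0 : ℝ) < Real.exp 1 := Real.exp_pos 1
    have h2 : Real.exp 1 ^ 2 < 2.7182818286 ^ 2 := by gcongr
    norm_num at h2 ⊢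
    linarith
  have hp := labelled_pow hn H hq0 hq1 hnq h W F
  have h32 : 0 ≤ 32 * q * Real.log n := by nlinarith
  set e := F.edgeSet.ncard with he
  calc (H.labelledCopyCount F : ℝ)
      ≤ (n : ℝ) ^ Fintype.card W * (32 * q * Real.log n) ^ e := hp
    _ ≤ (Real.exp 1 ^ (Fintype.card W) * (n.descFactorial (Fintype.card W) : ℝ)) *
          (32 * q * Real.log n) ^ e := by
        gcongr
    _ ≤ (Real.exp 1 ^ (2 * e) * (n.descFactorial (Fintype.card W) : ℝ)) *
          (32 * q * Real.log n) ^ e := by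
        gcongr
    _ = (n.descFactorial (Fintype.card W) : ℝ) *
          (Real.exp 1 ^ 2 * (32 * q * Real.log n)) ^ e := by
        rw [pow_mul, mul_pow]
        ring
    _ ≤ (n.descFactorial (Fintype.card W) : ℝ) * (240 * q * Real.log n) ^ e := by
        have hb : Real.exp 1 ^ 2 * (32 * q * Real.log n) ≤ 240 * q * Real.log n := by
          nlinarith [mul_nonneg (sub_nonneg.2 hexp2) hql]
        have hb0 : 0 ≤ Real.exp 1 ^ 2 * (32 * q * Real.log n) := by positivity
        exact mul_le_mul_of_nonneg_left (pow_le_pow_left₀ hb0 hb e) hD0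

theorem labelled_desc {n : ℕ} (hn : 2 ≤ n) (H : SimpleGraph (Fin n)) {q : ℝ}
    (hq0 : 0 < q) (hq1 : 2 * q ≤ 1) (hnq : 1 ≤ n * (2 * q)) (h : SubgraphsExpected n H q)
    (F : SimpleGraph (Fin n)) :
    (H.labelledCopyCount F : ℝ) ≤
      (n.factorial : ℝ) * (min 1 (240 * q * Real.log n)) ^ F.edgeSet.ncard := by
  classical
  by_cases hq : 240 * q * Real.log n ≤ 1
  · rw [min_eq_right hq]
    have key := labelled_of_support H F ((240 * q * Real.log n) ^ F.edgeSet.ncard) ?_
    · rw [Fintype.card_fin, Nat.descFactorial_self] at key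
      exact key
    rw [Fintype.card_fin, ← ncard_edgeSet_induce_support F]
    exact ls10_main hn H hq0 hq1 hnq h F.support (F.induce F.support)
      (induce_support_no_isolated F)
  · rw [not_le] at hq
    rw [min_eq_left hq.le, one_pow, mul_one]
    have h1 := labelled_le_top H F
    rw [labelledCopyCount_top, Fintype.card_fin, Nat.descFactorial_self] at h1
    exact_mod_cast h1

end Vale.Agent.Lib.P064.LS
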